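import Vale.Agent.P078.AllMasa.Defect.Low

/-! The lifted defect: the top part by cyclicity of the diagonal, the low part by the maximum
principle. -/

namespace Vale.Agent.P078.AllMasa.Lift

set_option linter.unusedSectionVars false

open Filter Topology MeasureTheory
open Vale.Agent.P078.Tracial
open scoped ENNReal InnerProductSpace ComplexOrder

variable {X : Type} [TopologicalSpace X] [CompactSpace X] [T2Space X] [TotallyDisconnectedSpace X]
variable [MeasurableSpace X] [BorelSpace X]
variable {μ : Measure X} [IsFiniteMeasure μ] {r : ℕ} {d : LData X r}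

theorem xWord_star (f : C(X, ℝ)) : star (xWord μ f).op = (xWord μ f).op := by
  rw [Word.star_op]
  refine ContinuousLinearMap.ext fun g => Lp.ext ?_
  refine ((xWord μ f).adj.coe_op g).trans (EventuallyEq.trans ?_ (coe_mulWord _ _ g).symm)
  filter_upwards [th_idOn (μ := μ) (V := Set.univ) isClopen_univ] with z hid
  have hz : z ∈ dz (xWord μ f).adj.p := ⟨Set.mem_univ _, trivial⟩
  simp only [Word.fn, Set.indicator_of_mem hz]
  show ((f (th μ (PMap.idOn Set.univ isClopen_univ) z).1 : ℝ) : ℂ) *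
    g (th μ (PMap.idOn Set.univ isClopen_univ) z) = _
  rw [hid (Set.mem_univ _)]

theorem Aop_star (hd : d.Ok) (hns : ∀ c k, ((d.F c).p k).NS μ) (c : Fin r) :
    star (Aop μ d hns c) = Aop μ d hns c := by
  simp only [Aop, star_mul, star_sub, xWord_star, (kop_bound hd hns c).1.star_eq, mul_assoc]

theorem norm_Aop_le (hd : d.Ok) (hns : ∀ c k, ((d.F c).p k).NS μ) (c : Fin r) :
    ‖Aop μ d hns c‖ ≤ 2 * d.B := by
  have h1 : ‖(xWord μ (d.act c)).op‖ ≤ 1 := norm_op_le _ zero_le_one (by
    show ‖d.act c‖ ≤ 1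
    refine (ContinuousMap.norm_le _ zero_le_one).2 fun x => ?_
    rcases hd.act_01 c x with h | h <;> simp [h])
  have h2 : ‖(xWord μ (d.e c)).op‖ ≤ d.B := norm_op_le _ hd.B_pos.le (by
    show ‖d.e c‖ ≤ d.B
    refine (ContinuousMap.norm_le _ hd.B_pos.le).2 fun x => ?_
    rw [Real.norm_of_nonneg (ContinuousMap.le_def.1 (hd.e_nonneg c) x)]
    exact hd.e_le c x)
  have h3 : ‖(xWord μ (d.e c)).op -
      ∑ k, (gWord μ ((d.F c).g k) ((d.F c).p k) (hns c k)).op‖ ≤ d.B + d.B :=
    (norm_sub_le _ _).trans (add_le_add h2 (kop_bound hd hns c).2)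
  unfold Aop
  refine (norm_mul_le _ _).trans ?_
  refine (mul_le_mul ((norm_mul_le _ _).trans (mul_le_mul h1 h3 (norm_nonneg _) zero_le_one)) h1
    (norm_nonneg _) (mul_nonneg zero_le_one (by linarith [hd.B_pos]))).trans_eq ?_
  ring

theorem Tn_pos (hd : d.Ok) : 0 < d.Tn := by
  unfold LData.Tn
  have := hd.B_pos
  positivity

theorem Mop_nonneg (hd : d.Ok) (hns : ∀ c k, ((d.F c).p k).NS μ) : 0 ≤ Mop μ d hns :=
  Finset.sum_nonneg fun c _ => by
    have h := star_mul_self_nonneg (Aop μ d hns c)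
    rwa [Aop_star hd hns c] at h

theorem qOp_le (hd : d.Ok) (hns : ∀ c k, ((d.F c).p k).NS μ) (n : ℕ) {ε : ℝ} (hε : 0 < ε)
    (hεn : ε * (d.Tn⁻¹ * (2 * n)) ≤ 1) :
    qOp μ d hns n ≤ ((2 : ℝ) : ℂ) • Ring.inverse (Mop μ d hns + (ε : ℂ) • 1) := by
  set M := Mop μ d hns with hM
  set t : ℝ := d.Tn⁻¹ with ht
  have hT := Tn_pos hd
  have ht0 : 0 < t := inv_pos.2 hT
  set Z := 1 - (t : ℂ) • M with hZ
  have hM0 : 0 ≤ M := Mop_nonneg hd hns
  have hMn : ‖M‖ ≤ d.Tn := by
    refine (norm_sum_le _ _).trans ((Finset.sum_le_sum fun c _ => (norm_mul_le _ _).trans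
      (mul_le_mul (norm_Aop_le hd hns c) (norm_Aop_le hd hns c) (norm_nonneg _)
        (by linarith [hd.B_pos]))).trans ?_)
    rw [Finset.sum_const, Finset.card_univ, Fintype.card_fin, nsmul_eq_mul]
    unfold LData.Tn
    have h0 : 0 ≤ (2 * d.B) ^ 2 := sq_nonneg _
    linarith [show 2 * d.B * (2 * d.B) = (2 * d.B) ^ 2 by ring]
  have htM : 0 ≤ (t : ℂ) • M :=
    (Schur.smul_mono ht0.le hM0).trans_eq' (smul_zero _)
  have hZ0 : 0 ≤ Z := by
    rw [hZ, sub_nonneg]
    refine (Schur.smul_mono ht0.le (Schur.le_smul_norm (IsSelfAdjoint.of_nonneg hM0) hMn)).trans_eq ?_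
    rw [smul_smul, ← Complex.ofReal_mul, ht, inv_mul_cancel₀ hT.ne', Complex.ofReal_one, one_smul]
  have hZn : ‖Z‖ ≤ 1 := Schur.norm_le_smul_one zero_le_one hZ0 (by
    rw [Complex.ofReal_one, one_smul, hZ]
    exact sub_le_self _ htM)
  have hZp : ∀ i : ℕ, ‖Z ^ i‖ ≤ 1 := fun i => by
    induction i with
    | zero => rw [pow_zero]; exact ContinuousLinearMap.norm_id_le
    | succ i ih =>
      rw [pow_succ]
      exact (norm_mul_le _ _).trans (by
        simpa using mul_le_mul ih hZn (norm_nonneg _) zero_le_one)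
  set q := qOp μ d hns n with hq
  have hqd : q = (t : ℂ) • ∑ i ∈ Finset.range (2 * n), Z ^ i := rfl
  have hZsa : IsSelfAdjoint Z := IsSelfAdjoint.of_nonneg hZ0
  have hqsa : IsSelfAdjoint q := by
    rw [hqd]
    exact Schur.isSelfAdjoint_smul (isSelfAdjoint_sum _ fun i _ => hZsa.pow i) t
  have hqn : ‖q‖ ≤ t * (2 * n) := by
    rw [hqd, norm_smul, Complex.norm_real, Real.norm_of_nonneg ht0.le]
    refine mul_le_mul_of_nonneg_left ((norm_sum_le _ _).trans
      ((Finset.sum_le_sum fun i _ => hZp i).trans_eq ?_)) ht0.le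
    simp
  have hqM : q * M ≤ 1 := by
    have e : q * M = 1 - Z ^ (2 * n) := by
      rw [← geom_sum_mul_neg Z (2 * n), hZ, sub_sub_cancel, hqd, smul_mul_assoc, mul_smul_comm]
    rw [e]
    refine sub_le_self _ ?_
    have h := star_mul_self_nonneg (Z ^ n)
    rw [(hZsa.pow n).star_eq, ← pow_add] at h
    rwa [two_mul]
  have hqN : q * (M + (ε : ℂ) • 1) ≤ ((2 : ℝ) : ℂ) • (1 : H μ →L[ℂ] H μ) := by
    rw [mul_add, mul_smul_comm, mul_one]
    refine (add_le_add hqM (Schur.smul_mono hε.le (Schur.le_smul_norm hqsa hqn))).trans ?_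
    refine le_of_le_of_eq (add_le_add le_rfl (le_of_le_of_eq (b := ((1 : ℝ) : ℂ) • 1) ?_
      (by rw [Complex.ofReal_one, one_smul]))) ?_
    · rw [smul_smul, ← Complex.ofReal_mul]
      exact Schur.smul_one_mono hεn
    · rw [Complex.ofReal_ofNat, two_smul]
  refine Schur.le_inverse (Schur.isUnit_of_ge' hε (le_add_of_nonneg_left hM0)) ?_ hqN
  have hc : Commute q M := by
    rw [hqd]
    refine Commute.smul_left (Commute.sum_left _ _ _ fun i _ => Commute.pow_left ?_ i) _
    exact (Commute.one_left M).sub_left ((Commute.refl M).smul_left _)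
  exact hc.add_right ((Commute.one_right q).smul_right _)

/-- The window above the level. -/
noncomputable def topWin (μ : Measure X) [IsFiniteMeasure μ] (d : LData X r) (R : ℝ) : Win μ where
  s := topSet d R
  meas := topSet_meas d R
  fin := by
    rw [topSet, nu, Measure.prod_prod]
    refine ENNReal.mul_ne_top (measure_ne_top μ _) ?_
    exact ((Measure.restrict_apply_le _ _).trans_lt (by simp)).ne

theorem real_topSet (hd : d.Ok) {R : ℝ} (hR : 0 ≤ R) :
    (nu μ).real (topSet d R) = (∫ x, d.U x ∂μ) * R := by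
  have h1 : (volume.restrict (Set.Ioi (0 : ℝ))).real (Set.Ioc 0 R) = R := by
    rw [measureReal_restrict_apply measurableSet_Ioc, Set.inter_eq_left.2 Set.Ioc_subset_Ioi_self,
      Real.volume_real_Ioc_of_le hR, sub_zero]
  have hA : MeasurableSet {x | d.U x = 1} :=
    measurableSet_eq_fun d.U.continuous.measurable measurable_const
  have h2 : μ.real {x | d.U x = 1} = ∫ x, d.U x ∂μ := by
    rw [← integral_indicator_one hA]
    refine integral_congr_ae (Eventually.of_forall fun x => ?_)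
    rcases hd.U_01 x with h | h <;> simp [h]
  rw [topSet, nu, measureReal_prod_prod, h1, h2]

theorem proj_vec (S : Win μ) (π : DiscreteQuotient X) (j : π) :
    proj μ S.meas (vec S π j) = vec S π j := by
  refine Lp.ext ?_
  filter_upwards [coe_proj (μ := μ) S.meas (vec S π j),
    indicatorConstLp_coeFn (hs := cellSet_meas S π j) (hμs := cellSet_fin S π j) (c := (1 : ℂ))
      (p := 2)] with z h1 h2
  rw [h1]
  by_cases hz : z ∈ S.s
  · rw [Set.indicator_of_mem hz]
  · rw [Set.indicator_of_notMem hz, vec, h2, Set.indicator_of_notMem fun h => hz h.1]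

theorem diag_proj (S : Win μ) (π : DiscreteQuotient X) (A : H μ →L[ℂ] H μ) :
    diag S π (proj μ S.meas * A * proj μ S.meas) = diag S π A := by
  refine Finset.sum_congr rfl fun j _ => ?_
  show ⟪_, proj μ S.meas (A (proj μ S.meas (vec S π j)))⟫_ℂ = _
  rw [proj_vec, ← ContinuousLinearMap.adjoint_inner_left (proj μ S.meas),
    ← ContinuousLinearMap.star_eq_adjoint, proj_star, proj_vec]

/-- The lifted defect is eventually at most four roots of the number of colours. -/
theorem eventually_lifted_le [μ.Regular] (hd : d.Ok)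
    (hnull : ∀ c k, ((d.F c).p k).NullPres μ) (hns : ∀ c k, ((d.F c).p k).NS μ) {τ0 : ℝ}
    (hτ0 : 0 < τ0)
    (hsuper : ∀ c (f : C(X, ℝ)), 0 ≤ f →
      (∫ x, d.act c x * (d.F c).K (d.act c * f) x ∂μ) + τ0 * ∫ x, d.act c x * f x ∂μ
        ≤ ∫ x, d.e c x * (d.act c x * f x) ∂μ)
    (hr : 1 ≤ r) (n : ℕ) {ε : ℝ} (hε : 0 < ε) :
    ∀ᶠ π : DiscreteQuotient X in atBot,
      (∑ c, diag (Win.one μ) π (Aop μ d hns c * qOp μ d hns n * Aop μ d hns c)).re ≤
        4 * √r * (∫ x, d.U x ∂μ) + ε := by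
  classical
  set R := √(r : ℝ) with hR
  have hR1 : 1 ≤ R := Real.one_le_sqrt.2 (Nat.one_le_cast.2 hr)
  have hR0 : 0 < R := one_pos.trans_le hR1
  have hT := Tn_pos hd
  set η : ℝ := (d.Tn⁻¹ * (2 * n) + 1)⁻¹ with hη
  have hη0 : 0 < η := by positivity
  have hηn : η * (d.Tn⁻¹ * (2 * n)) ≤ 1 := by
    rw [hη, inv_mul_le_iff₀ (by positivity), mul_one]; linarith
  set M := Mop μ d hns with hM
  set T := proj μ (topSet_meas d R) with hTdef
  obtain ⟨Q, Y, -, hYs, hQ0, hTQ, hinv, hYM⟩ := Schur.exists_split (alg μ) (Mop_nonneg hd hns)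
    (Mop_mem μ d hns) (proj_isStarProjection (topSet_meas d R)) (proj_mem _) hη0
  set A : Fin r → H μ →L[ℂ] H μ := fun c => Aop μ d hns c with hA
  have hNpos : IsStrictlyPositive (M + (η : ℂ) • 1) :=
    Schur.isUnit_of_ge' hη0 (le_add_of_nonneg_left (Mop_nonneg hd hns))
  have hYT : 0 ≤ Y * T * star Y := by
    have h := star_left_conjugate_le_conjugate
      ((proj_isStarProjection (μ := μ) (topSet_meas d R)).nonneg) (star Y)
    rwa [star_star, mul_zero, zero_mul] at h
  have hQi : Q ≤ Ring.inverse (M + (η : ℂ) • 1) := by rw [hinv]; exact le_add_of_nonneg_right hYT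
  have hconj : ∀ c {P P' : H μ →L[ℂ] H μ}, P ≤ P' → A c * P * A c ≤ A c * P' * A c :=
    fun c {P P'} h => by
      have := star_left_conjugate_le_conjugate h (A c)
      rwa [Aop_star hd hns c] at this
  have hAA : ∀ c, A c * A c ≤ M + (η : ℂ) • 1 := fun c => by
    refine (Finset.single_le_sum (f := fun i => A i * A i) (fun i _ => ?_)
      (Finset.mem_univ c)).trans (le_add_of_nonneg_right ?_)
    · have h := star_mul_self_nonneg (A i)
      rwa [Aop_star hd hns i] at h
    · exact (Schur.smul_mono hη0.le zero_le_one).trans_eq' (smul_zero _)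
  have hAQA : ∀ c, A c * Q * A c ≤ 1 := fun c =>
    (hconj c hQi).trans (Schur.conj_inverse_le_one (Aop_star hd hns c) hNpos (hAA c))
  set S := Win.one μ with hS
  set W := topWin μ d R with hW
  have hq := qOp_le hd hns n hη0 hηn
  -- the cyclicity
  have hcyc := tendsto_finsetSum (Finset.univ : Finset (Fin r)) fun c _ =>
    tendsto_cyclic S W (B := A c * Y) (C := star (A c * Y))
      (mul_mem (Aop_mem μ d hns c) hYs) (star_mem (mul_mem (Aop_mem μ d hns c) hYs))
  rw [Finset.sum_const_zero] at hcyc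
  filter_upwards [NormedAddGroup.tendsto_nhds_zero.1 hcyc (ε / 2) (by positivity)] with π hπ
  have h1 : ∀ c, (diag S π (A c * qOp μ d hns n * A c)).re ≤
      2 * ((∫ x, d.U x ∂μ) * R⁻¹) +
        2 * (diag S π ((A c * Y) * proj μ W.meas * star (A c * Y))).re := fun c => by
    refine (diag_mono (hconj c hq) S π).trans ?_
    rw [mul_smul_comm, smul_mul_assoc, diag_smul, Complex.re_ofReal_mul, hinv, mul_add, add_mul,
      diag_add, Complex.add_re, mul_add]
    refine add_le_add (mul_le_mul_of_nonneg_left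
      (low_bound hd hnull hns hτ0 hsuper c hR1 hQ0 hTQ (hAQA c) π) zero_le_two) (le_of_eq ?_)
    rw [star_mul, Aop_star hd hns c, show proj μ W.meas = T from rfl]
    simp only [hA, hTdef, mul_assoc]
  have h2 : ∑ c, (diag W π (star (A c * Y) * proj μ S.meas * (A c * Y))).re ≤
      (∫ x, d.U x ∂μ) * R := by
    have hs1 : ∀ c, star (A c * Y) * proj μ S.meas * (A c * Y) ≤ star (A c * Y) * (A c * Y) :=
      fun c => by
      have h := star_left_conjugate_le_conjugate
        (proj_isStarProjection (μ := μ) S.meas).le_one (A c * Y)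
      rwa [mul_one] at h
    have e : ∑ c, star (A c * Y) * (A c * Y) = star Y * M * Y := by
      rw [hM, Mop, Finset.mul_sum, Finset.sum_mul]
      refine Finset.sum_congr rfl fun c _ => ?_
      rw [star_mul, Aop_star hd hns c]
      simp only [hA, mul_assoc]
    calc ∑ c, (diag W π (star (A c * Y) * proj μ S.meas * (A c * Y))).re
        ≤ ∑ c, (diag W π (star (A c * Y) * (A c * Y))).re :=
          Finset.sum_le_sum fun c _ => diag_mono (hs1 c) W π
      _ = (diag W π (T * (star Y * M * Y) * T)).re := by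
          rw [← Complex.re_sum, ← diag_sum, e]
          exact congrArg Complex.re (diag_proj W π _).symm
      _ ≤ (diag W π T).re := diag_mono hYM W π
      _ ≤ (nu μ).real W.s * 1 := by
          refine (Complex.re_le_norm _).trans ((norm_diag_le W π T).trans
            (mul_le_mul_of_nonneg_left ?_ measureReal_nonneg))
          exact norm_op_le (indWord μ (topSet_meas d R)) zero_le_one le_rfl
      _ = _ := by rw [mul_one]; exact real_topSet hd hR0.le
  have h3 := (abs_le.1 ((Complex.abs_re_le_norm _).trans hπ.le)).2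
  simp only [Complex.re_sum, Complex.sub_re, Finset.sum_sub_distrib] at h3
  rw [Complex.re_sum]
  refine (Finset.sum_le_sum fun c _ => h1 c).trans ?_
  rw [Finset.sum_add_distrib, Finset.sum_const, Finset.card_univ, Fintype.card_fin, nsmul_eq_mul,
    ← Finset.mul_sum]
  have hrR : (r : ℝ) * R⁻¹ = R := by
    rw [← div_eq_mul_inv, hR, Real.div_sqrt]
  calc (r : ℝ) * (2 * ((∫ x, d.U x ∂μ) * R⁻¹)) +
        2 * ∑ c, (diag S π (A c * Y * proj μ W.meas * star (A c * Y))).re
      ≤ 2 * (∫ x, d.U x ∂μ) * ((r : ℝ) * R⁻¹) + 2 * ((∫ x, d.U x ∂μ) * R + ε / 2) := by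
        refine add_le_add (le_of_eq (by ring)) (mul_le_mul_of_nonneg_left ?_ zero_le_two)
        linarith
    _ = _ := by rw [hrR]; ring

end Vale.Agent.P078.AllMasa.Lift
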