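import Vale.Agent.P078.AllMasa.Ops

/-! Densities of nonsingular partial homeomorphisms. -/

namespace Vale.Agent.P078.AllMasa

set_option linter.unusedSectionVars false

open Filter Topology MeasureTheory
open Vale.Agent.P078.Tracial
open scoped ENNReal

variable {X : Type} [TopologicalSpace X]

namespace PMap

/-- First one partial homeomorphism, then the other. -/
def comp (p q : PMap X) : PMap X where
  dom := p.dom ∩ p.τ ⁻¹' q.dom
  rng := q.rng ∩ q.σ ⁻¹' p.rng
  dom_clopen := p.dom_clopen.inter (q.dom_clopen.preimage p.τ.continuous)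
  rng_clopen := q.rng_clopen.inter (p.rng_clopen.preimage q.σ.continuous)
  τ := q.τ.comp p.τ
  σ := p.σ.comp q.σ
  map_dom x hx := ⟨q.map_dom _ hx.2, by
    show q.σ (q.τ (p.τ x)) ∈ p.rng
    rw [q.left_inv _ hx.2]; exact p.map_dom _ hx.1⟩
  map_rng x hx := ⟨p.map_rng _ hx.2, by
    show p.τ (p.σ (q.σ x)) ∈ q.dom
    rw [p.right_inv _ hx.2]; exact q.map_rng _ hx.1⟩
  left_inv x hx := by
    show p.σ (q.σ (q.τ (p.τ x))) = x
    rw [q.left_inv _ hx.2, p.left_inv _ hx.1]
  right_inv x hx := by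
    show q.τ (p.τ (p.σ (q.σ x))) = x
    rw [p.right_inv _ hx.2, q.right_inv _ hx.1]

/-- The identity of a clopen set. -/
def idOn (V : Set X) (hV : IsClopen V) : PMap X :=
  ⟨V, V, hV, hV, ContinuousMap.id X, ContinuousMap.id X, fun _ h => h, fun _ h => h,
    fun _ _ => rfl, fun _ _ => rfl⟩

theorem symm_symm (p : PMap X) : p.symm.symm = p := rfl

/-- The points fixed by a partial homeomorphism. -/
def fix (p : PMap X) : Set X := p.dom ∩ {x | p.τ x = x}

theorem mem_fix {p : PMap X} {x : X} : x ∈ p.fix ↔ x ∈ p.dom ∧ p.τ x = x := Iff.rfl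

theorem fix_isClosed [T2Space X] (p : PMap X) : IsClosed p.fix :=
  p.dom_clopen.isClosed.inter (isClosed_eq p.τ.continuous continuous_id)

end PMap

variable [CompactSpace X] [T2Space X] [TotallyDisconnectedSpace X]
variable [MeasurableSpace X] [BorelSpace X]
variable {μ : Measure X}

/-- A partial homeomorphism nonsingular in both directions. -/
structure PMap.NS (p : PMap X) (μ : Measure X) : Prop where
  fwd : p.NullPres μ
  bwd : p.symm.NullPres μ

theorem PMap.NS.symm {p : PMap X} (h : p.NS μ) : p.symm.NS μ := ⟨h.bwd, h.fwd⟩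

theorem PMap.NS.idOn (V : Set X) (hV : IsClopen V) : (PMap.idOn V hV).NS μ :=
  ⟨fun B _ h => by rw [Set.inter_comm] at h; exact h,
    fun B _ h => by rw [Set.inter_comm] at h; exact h⟩

theorem PMap.NullPres.comp {p q : PMap X} (hp : p.NullPres μ) (hq : q.NullPres μ) :
    (p.comp q).NullPres μ := by
  intro B hB h
  have h1 : μ (B ∩ q.σ ⁻¹' p.rng ∩ q.rng) = 0 :=
    measure_mono_null (fun x hx => show x ∈ B ∩ (p.comp q).rng from ⟨hx.1.1, hx.2, hx.1.2⟩) h
  have h2 := hq _ (hB.inter (q.σ.continuous.measurable p.rng_clopen.isClosed.measurableSet)) h1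
  have h3 : MeasurableSet (q.dom ∩ q.τ ⁻¹' (B ∩ q.σ ⁻¹' p.rng)) :=
    q.dom_clopen.isClosed.measurableSet.inter (q.τ.continuous.measurable
      (hB.inter (q.σ.continuous.measurable p.rng_clopen.isClosed.measurableSet)))
  have h4 := hp _ h3 (measure_mono_null Set.inter_subset_left h2)
  refine measure_mono_null ?_ h4
  rintro x ⟨⟨hx1, hx2⟩, hx3⟩
  refine ⟨hx1, hx2, hx3, ?_⟩
  show q.σ (q.τ (p.τ x)) ∈ p.rng
  rw [q.left_inv _ hx2]
  exact p.map_dom _ hx1

theorem PMap.NS.comp {p q : PMap X} (hp : p.NS μ) (hq : q.NS μ) : (p.comp q).NS μ :=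
  ⟨hp.fwd.comp hq.fwd, hq.bwd.comp hp.bwd⟩

/-- The density of the measure pulled back along a partial homeomorphism. -/
noncomputable def PMap.dens (p : PMap X) (μ : Measure X) : X → ℝ≥0∞ :=
  ((μ.restrict p.rng).map p.σ).rnDeriv μ

theorem PMap.measurable_dens (p : PMap X) : Measurable (p.dens μ) :=
  Measure.measurable_rnDeriv _ _

namespace PMap

variable {p q : PMap X} [IsFiniteMeasure μ]

theorem NS.map_ac (h : p.NS μ) : (μ.restrict p.rng).map p.σ ≪ μ := by
  refine Measure.AbsolutelyContinuous.mk fun B hB h0 => ?_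
  rw [Measure.map_apply p.σ.continuous.measurable hB,
    Measure.restrict_apply (p.σ.continuous.measurable hB), Set.inter_comm]
  exact h.bwd B hB (measure_mono_null Set.inter_subset_left h0)

theorem NS.lintegral_dens (h : p.NS μ) {F : X → ℝ≥0∞} (hF : Measurable F) :
    ∫⁻ x, p.dens μ x * F x ∂μ = ∫⁻ y in p.rng, F (p.σ y) ∂μ := by
  rw [PMap.dens, lintegral_rnDeriv_mul h.map_ac hF.aemeasurable,
    lintegral_map hF p.σ.continuous.measurable]

theorem NS.setLIntegral_dens (h : p.NS μ) {A : Set X} (hA : MeasurableSet A) :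
    ∫⁻ x in A, p.dens μ x ∂μ = μ (p.rng ∩ p.σ ⁻¹' A) := by
  rw [PMap.dens, Measure.setLIntegral_rnDeriv h.map_ac A, Measure.map_apply
    p.σ.continuous.measurable hA, Measure.restrict_apply (p.σ.continuous.measurable hA),
    Set.inter_comm]

theorem NS.dens_lt_top : ∀ᵐ x ∂μ, p.dens μ x < ∞ :=
  Measure.rnDeriv_lt_top _ _

/-- The density lives on the domain. -/
theorem NS.dens_eq_zero (h : p.NS μ) : ∀ᵐ x ∂μ, x ∉ p.dom → p.dens μ x = 0 := by
  have hd : MeasurableSet p.domᶜ := p.dom_clopen.isClosed.measurableSet.compl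
  have h1 : ∫⁻ x in p.domᶜ, p.dens μ x ∂μ = 0 := by
    rw [h.setLIntegral_dens hd,
      show p.rng ∩ p.σ ⁻¹' p.domᶜ = ∅ from Set.eq_empty_of_forall_notMem fun y hy =>
        hy.2 (p.map_rng y hy.1), measure_empty]
  rw [setLIntegral_eq_zero_iff hd p.measurable_dens] at h1
  exact h1

theorem idOn_dens {V : Set X} (hV : IsClopen V) :
    ∀ᵐ x ∂μ, (PMap.idOn V hV).dens μ x = V.indicator 1 x := by
  have hm : MeasurableSet V := hV.isClosed.measurableSet
  refine ae_eq_of_forall_setLIntegral_eq_of_sigmaFinite (PMap.measurable_dens _)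
    (measurable_const.indicator hm) fun A hA _ => ?_
  rw [(NS.idOn V hV).setLIntegral_dens hA, setLIntegral_indicator hm,
    show (1 : X → ℝ≥0∞) = fun _ => 1 from rfl, setLIntegral_one]
  rfl

/-- The chain rule. -/
theorem NS.dens_comp (hp : p.NS μ) (hq : q.NS μ) :
    ∀ᵐ x ∂μ, (p.comp q).dens μ x = p.dens μ x * q.dens μ (p.τ x) := by
  have hm : Measurable fun x => p.dens μ x * q.dens μ (p.τ x) :=
    p.measurable_dens.mul (q.measurable_dens.comp p.τ.continuous.measurable)
  refine ae_eq_of_forall_setLIntegral_eq_of_sigmaFinite (PMap.measurable_dens _) hm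
    fun A hA _ => ?_
  rw [(hp.comp hq).setLIntegral_dens hA, ← lintegral_indicator hA]
  have e1 : ∀ x, A.indicator (fun x => p.dens μ x * q.dens μ (p.τ x)) x =
      p.dens μ x * A.indicator (fun x => q.dens μ (p.τ x)) x := fun x => by
    by_cases hx : x ∈ A <;> simp [hx]
  simp only [e1]
  have hA1 : MeasurableSet (p.rng ∩ p.σ ⁻¹' A) :=
    p.rng_clopen.isClosed.measurableSet.inter (p.σ.continuous.measurable hA)
  rw [hp.lintegral_dens (F := A.indicator fun x => q.dens μ (p.τ x))
      ((q.measurable_dens.comp p.τ.continuous.measurable).indicator hA),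
    ← lintegral_indicator p.rng_clopen.isClosed.measurableSet]
  have e2 : ∀ y, p.rng.indicator
      (fun y => A.indicator (fun x => q.dens μ (p.τ x)) (p.σ y)) y =
      (p.rng ∩ p.σ ⁻¹' A).indicator (q.dens μ) y := fun y => by
    by_cases hy : y ∈ p.rng
    · by_cases hy' : p.σ y ∈ A
      · simp [hy, hy', p.right_inv y hy]
      · simp [hy, hy']
    · simp [hy]
  simp only [e2]
  rw [lintegral_indicator hA1, hq.setLIntegral_dens hA1]
  congr 1
  ext z
  simp only [PMap.comp, Set.mem_inter_iff, Set.mem_preimage, ContinuousMap.comp_apply, and_assoc]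

theorem NS.dens_mul_symm (h : p.NS μ) :
    ∀ᵐ x ∂μ, p.dens μ x * p.symm.dens μ (p.τ x) = p.dom.indicator 1 x := by
  have e : ∀ᵐ x ∂μ, (p.comp p.symm).dens μ x = p.dom.indicator 1 x := by
    have hm : MeasurableSet p.dom := p.dom_clopen.isClosed.measurableSet
    refine ae_eq_of_forall_setLIntegral_eq_of_sigmaFinite (PMap.measurable_dens _)
      (measurable_const.indicator hm) fun A hA _ => ?_
    rw [(h.comp h.symm).setLIntegral_dens hA, setLIntegral_indicator hm,
      show (1 : X → ℝ≥0∞) = fun _ => 1 from rfl, setLIntegral_one]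
    congr 1
    ext x
    simp only [PMap.comp, PMap.symm, Set.mem_inter_iff, Set.mem_preimage,
      ContinuousMap.comp_apply]
    constructor
    · rintro ⟨⟨hx, _⟩, h2⟩
      rw [p.left_inv x hx] at h2
      exact ⟨hx, h2⟩
    · rintro ⟨hx, h2⟩
      exact ⟨⟨hx, p.map_dom x hx⟩, by rwa [p.left_inv x hx]⟩
  filter_upwards [h.dens_comp h.symm, e] with x h1 h2
  rw [← h1, h2]

/-- On the fixed points the density is one. -/
theorem NS.dens_fix (h : p.NS μ) : ∀ᵐ x ∂μ, x ∈ p.fix → p.dens μ x = 1 := by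
  have hm : MeasurableSet p.fix := p.fix_isClosed.measurableSet
  refine (ae_restrict_iff' hm).1 ?_
  refine ae_eq_of_forall_setLIntegral_eq_of_sigmaFinite p.measurable_dens measurable_const
    fun A hA _ => ?_
  rw [Measure.restrict_restrict hA, h.setLIntegral_dens (hA.inter hm), setLIntegral_one]
  congr 1
  ext y
  simp only [Set.mem_inter_iff, Set.mem_preimage, mem_fix]
  constructor
  · rintro ⟨hy, hA', hd, hf⟩
    have e : p.σ y = y := by rw [← hf, p.right_inv y hy]
    rw [e] at hA' hd hf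
    exact ⟨hA', hd, hf⟩
  · rintro ⟨hA', hd, hf⟩
    have hy : y ∈ p.rng := hf ▸ p.map_dom y hd
    have e : p.σ y = y := by conv_lhs => rw [← hf, p.left_inv y hd]
    exact ⟨hy, by rw [e]; exact hA', by rw [e]; exact hd, by rw [e]; exact hf⟩

end PMap

end Vale.Agent.P078.AllMasa
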