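import Vale.Agent.P078.AllMasa.Defect.Lift
import Mathlib.Analysis.CStarAlgebra.ContinuousFunctionalCalculus.Range

/-! The diagonal functional of a finite window: its limit along partitions and its symmetry on
the closed algebra of lifted operators. -/

namespace Vale.Agent.P078.AllMasa.Lift

set_option linter.unusedSectionVars false

open Filter Topology MeasureTheory
open Vale.Agent.P078.Tracial
open scoped ENNReal InnerProductSpace ComplexOrder

variable {X : Type} [TopologicalSpace X] [CompactSpace X] [T2Space X] [TotallyDisconnectedSpace X]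
variable [MeasurableSpace X] [BorelSpace X]
variable {μ : Measure X} [IsFiniteMeasure μ]

/-- A window: a measurable set of finite measure. -/
structure Win (μ : Measure X) where
  s : Set (X × ℝ)
  meas : MeasurableSet s
  fin : nu μ s ≠ ∞

/-- The part of a window in one cell. -/
def cellSet (S : Win μ) (π : DiscreteQuotient X) (j : π) : Set (X × ℝ) :=
  S.s ∩ (π.proj ⁻¹' {j}) ×ˢ Set.univ

theorem cellSet_meas (S : Win μ) (π : DiscreteQuotient X) (j : π) :
    MeasurableSet (cellSet S π j) :=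
  S.meas.inter ((π.isClopen_preimage {j}).isClosed.measurableSet.prod MeasurableSet.univ)

theorem cellSet_fin (S : Win μ) (π : DiscreteQuotient X) (j : π) :
    nu μ (cellSet S π j) ≠ ∞ :=
  measure_ne_top_of_subset Set.inter_subset_left S.fin

/-- The vector of one cell of a window. -/
noncomputable def vec (S : Win μ) (π : DiscreteQuotient X) (j : π) : H μ :=
  indicatorConstLp 2 (cellSet_meas S π j) (cellSet_fin S π j) 1

/-- The vector of a window. -/
noncomputable def Win.vec (S : Win μ) : H μ := indicatorConstLp 2 S.meas S.fin 1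

/-- The diagonal of an operator along a partition. -/
noncomputable def diag (S : Win μ) (π : DiscreteQuotient X) (A : H μ →L[ℂ] H μ) : ℂ :=
  ∑ j : π, ⟪vec S π j, A (vec S π j)⟫_ℂ

theorem diag_add (S : Win μ) (π : DiscreteQuotient X) (A B : H μ →L[ℂ] H μ) :
    diag S π (A + B) = diag S π A + diag S π B := by
  simp [diag, inner_add_right, Finset.sum_add_distrib]

theorem diag_smul (S : Win μ) (π : DiscreteQuotient X) (c : ℂ) (A : H μ →L[ℂ] H μ) :
    diag S π (c • A) = c * diag S π A := by
  simp [diag, inner_smul_right, Finset.mul_sum]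

theorem diag_sub (S : Win μ) (π : DiscreteQuotient X) (A B : H μ →L[ℂ] H μ) :
    diag S π (A - B) = diag S π A - diag S π B := by
  simp [diag, inner_sub_right, Finset.sum_sub_distrib]

theorem diag_zero (S : Win μ) (π : DiscreteQuotient X) :
    diag S π (0 : H μ →L[ℂ] H μ) = 0 := by
  simp [diag]

theorem diag_sum {ι : Type*} (S : Win μ) (π : DiscreteQuotient X) (s : Finset ι)
    (A : ι → H μ →L[ℂ] H μ) : diag S π (∑ i ∈ s, A i) = ∑ i ∈ s, diag S π (A i) :=
  map_sum (AddMonoidHom.mk' (diag S π) (diag_add S π)) A s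

theorem sum_norm_vec_sq (S : Win μ) (π : DiscreteQuotient X) :
    ∑ j : π, ‖vec S π j‖ ^ 2 = (nu μ).real S.s := by
  classical
  have h : ∀ j, ‖vec S π j‖ ^ 2 = (nu μ).real (cellSet S π j) := fun j => by
    rw [vec, norm_indicatorConstLp (by norm_num) (by norm_num)]
    simp only [norm_one, one_mul, ENNReal.toReal_ofNat]
    rw [← Real.sqrt_eq_rpow, Real.sq_sqrt measureReal_nonneg]
  simp only [h]
  rw [← measureReal_iUnion_fintype ?_ (cellSet_meas S π) (cellSet_fin S π)]
  · congr 1
    ext z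
    simp [cellSet]
  · intro i j hij
    refine Set.disjoint_left.2 fun z hi hj => hij ?_
    exact (Set.mem_singleton_iff.1 hi.2.1).symm.trans (Set.mem_singleton_iff.1 hj.2.1)

theorem norm_diag_le (S : Win μ) (π : DiscreteQuotient X) (A : H μ →L[ℂ] H μ) :
    ‖diag S π A‖ ≤ (nu μ).real S.s * ‖A‖ := by
  rw [← sum_norm_vec_sq S π, Finset.sum_mul]
  refine (norm_sum_le _ _).trans (Finset.sum_le_sum fun j _ => ?_)
  refine (norm_inner_le_norm _ _).trans ?_
  calc ‖vec S π j‖ * ‖A (vec S π j)‖ ≤ ‖vec S π j‖ * (‖A‖ * ‖vec S π j‖) :=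
        mul_le_mul_of_nonneg_left (A.le_opNorm _) (norm_nonneg _)
    _ = _ := by ring

open Classical in
/-- The integrand of the diagonal of a word. -/
noncomputable def dfun (S : Win μ) (π : DiscreteQuotient X) (w : Word μ) (z : X × ℝ) : ℝ :=
  if z ∈ S.s ∧ z ∈ dz w.p ∧ th μ w.p z ∈ S.s ∧ π.proj z.1 = π.proj (w.p.τ z.1) then w.h z else 0

theorem diag_op (S : Win μ) (π : DiscreteQuotient X) (w : Word μ) :
    diag S π w.op = ((∫ z, dfun S π w z ∂nu μ : ℝ) : ℂ) := by
  classical
  set g : π → X × ℝ → ℝ := fun j => (cellSet S π j).indicator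
    ((dz w.p).indicator fun z => w.h z * (cellSet S π j).indicator 1 (th μ w.p z)) with hg
  have hgm : ∀ j, Integrable (g j) (nu μ) := fun j => by
    rw [hg, integrable_indicator_iff (cellSet_meas S π j)]
    refine IntegrableOn.of_bound (cellSet_fin S π j).lt_top ?_ w.C (Eventually.of_forall fun z => ?_)
    · exact ((w.h_meas.mul ((measurable_const.indicator (cellSet_meas S π j)).comp
        (th_meas _))).indicator (dz_meas _)).aestronglyMeasurable
    · have hC : 0 ≤ w.C := (abs_nonneg _).trans (w.bd z)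
      by_cases h1 : z ∈ dz w.p
      · rw [Set.indicator_of_mem h1, Real.norm_eq_abs, abs_mul]
        by_cases h2 : th μ w.p z ∈ cellSet S π j
        · simpa [h2] using w.bd z
        · simpa [h2] using hC
      · simpa [h1] using hC
  have h : ∀ j, ⟪vec S π j, w.op (vec S π j)⟫_ℂ = ((∫ z, g j z ∂nu μ : ℝ) : ℂ) := fun j => by
    rw [vec, L2.inner_indicatorConstLp_eq_setIntegral_inner ℂ _ (cellSet_meas S π j) (1 : ℂ)
      (cellSet_fin S π j), ← integral_indicator (cellSet_meas S π j), ← integral_complex_ofReal]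
    refine integral_congr_ae ?_
    filter_upwards [w.coe_op (indicatorConstLp 2 (cellSet_meas S π j) (cellSet_fin S π j) (1 : ℂ)),
      w.fn_congr (indicatorConstLp_coeFn (hs := cellSet_meas S π j) (hμs := cellSet_fin S π j)
        (c := (1 : ℂ)) (p := 2))] with z hz h1
    by_cases h0 : z ∈ cellSet S π j
    · simp only [hg, Set.indicator_of_mem h0, RCLike.inner_apply, map_one, mul_one, hz, h1]
      by_cases h2 : z ∈ dz w.p
      · simp only [Word.fn, Set.indicator_of_mem h2]
        by_cases h3 : th μ w.p z ∈ cellSet S π j <;> simp [h3]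
      · simp [Word.fn, h2]
    · simp [hg, h0]
  unfold diag
  simp only [h, ← Complex.ofReal_sum, ← integral_finsetSum _ fun j _ => hgm j]
  congr 1
  refine integral_congr_ae (Eventually.of_forall fun z => ?_)
  simp only [dfun, hg]
  rw [Finset.sum_eq_single (π.proj z.1)]
  · by_cases h1 : z ∈ S.s
    · have h0 : z ∈ cellSet S π (π.proj z.1) := ⟨h1, rfl, trivial⟩
      rw [Set.indicator_of_mem h0]
      by_cases h2 : z ∈ dz w.p
      · rw [Set.indicator_of_mem h2]
        by_cases h3 : th μ w.p z ∈ cellSet S π (π.proj z.1)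
        · rw [Set.indicator_of_mem h3, if_pos ⟨h1, h2, h3.1, h3.2.1.symm⟩]
          simp
        · rw [Set.indicator_of_notMem h3, if_neg fun h => h3 ⟨h.2.2.1, h.2.2.2.symm, trivial⟩]
          simp
      · simp [h2]
    · simp [h1, cellSet]
  · intro j _ hj
    have : z ∉ cellSet S π j := fun h => hj (Set.mem_singleton_iff.1 h.2.1).symm
    simp [this]
  · simp

theorem eventually_sep {p : PMap X} {K : Set X} (hK : IsCompact K)
    (h : K ⊆ p.dom \ p.fix) :
    ∀ᶠ π : DiscreteQuotient X in atBot, ∀ x ∈ K, π.proj x ≠ π.proj (p.τ x) := by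
  classical
  have hV : ∀ x : K, ∃ (V : Set X) (hV : IsClopen V), (x : X) ∈ V ∧ p.τ x ∉ V := fun x => by
    have hne : p.τ x ≠ x := fun e => (h x.2).2 ⟨(h x.2).1, e⟩
    obtain ⟨V, hV, hxV, hVy⟩ := compact_exists_isClopen_in_isOpen
      (isOpen_compl_singleton (x := p.τ x)) (fun e => hne (Set.mem_singleton_iff.1 e).symm)
    exact ⟨V, hV, hxV, fun hy => hVy hy rfl⟩
  choose V hV hxV hyV using hV
  obtain ⟨t, ht⟩ := hK.elim_finite_subcover (fun x : K => V x ∩ p.τ ⁻¹' (V x)ᶜ)
    (fun x => ((hV x).inter ((hV x).compl.preimage p.τ.continuous)).isOpen)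
    (fun x hx => Set.mem_iUnion.2 ⟨⟨x, hx⟩, hxV ⟨x, hx⟩, hyV ⟨x, hx⟩⟩)
  have h1 : ∀ i ∈ t, ∀ᶠ π : DiscreteQuotient X in atBot, ∀ x y, π.proj x = π.proj y →
      (x ∈ V i ↔ y ∈ V i) := fun i _ => by
    filter_upwards [eventually_le_atBot
      (LocallyConstant.ofIsClopen (hV i)).discreteQuotient] with π hπ x y hxy
    have h2 := congrArg (DiscreteQuotient.ofLE hπ) hxy
    simp only [DiscreteQuotient.ofLE_proj] at h2
    have h3 : LocallyConstant.ofIsClopen (hV i) x = LocallyConstant.ofIsClopen (hV i) y :=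
      Quotient.exact' h2
    have e : ∀ z, LocallyConstant.ofIsClopen (hV i) z = 0 ↔ z ∈ V i := fun z => by
      by_cases hz : z ∈ V i <;> simp [LocallyConstant.ofIsClopen, hz]
    rw [← e x, ← e y, h3]
  filter_upwards [(Finset.eventually_all t).2 h1] with π hπ x hx hxy
  obtain ⟨i, hi, hx1, hx2⟩ := Set.mem_iUnion₂.1 (ht hx)
  exact hx2 ((hπ i hi x (p.τ x) hxy).1 hx1)

theorem exists_compact_small [μ.Regular] (S : Win μ) {D : Set X} (hD : MeasurableSet D) {ε : ℝ}
    (hε : 0 < ε) :
    ∃ K : Set X, IsCompact K ∧ K ⊆ D ∧ (nu μ).real (S.s ∩ (D \ K) ×ˢ Set.univ) < ε := by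
  have h : ∀ n : ℕ, ∃ K ⊆ D, IsCompact K ∧ μ (D \ K) < ((n : ℝ≥0∞) + 1)⁻¹ := fun n =>
    hD.exists_isCompact_sdiff_lt (measure_ne_top μ D) (by simp)
  choose K hKD hK hKm using h
  set L : ℕ → Set X := fun n => ⋃ i ∈ Finset.range (n + 1), K i with hL
  have hLc : ∀ n, IsCompact (L n) := fun n =>
    (Finset.range (n + 1)).isCompact_biUnion fun i _ => hK i
  have hLD : ∀ n, L n ⊆ D := fun n => Set.iUnion₂_subset fun i _ => hKD i
  set A : ℕ → Set (X × ℝ) := fun n => S.s ∩ (D \ L n) ×ˢ Set.univ with hA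
  have hAm : ∀ n, NullMeasurableSet (A n) (nu μ) := fun n =>
    (S.meas.inter ((hD.diff (hLc n).isClosed.measurableSet).prod
      MeasurableSet.univ)).nullMeasurableSet
  have hmono : Antitone A := fun m n hmn => Set.inter_subset_inter_right _ (Set.prod_mono
    (Set.sdiff_subset_sdiff_right (Set.biUnion_subset_biUnion_left fun i hi =>
      Finset.mem_range.2 (lt_of_lt_of_le (Finset.mem_range.1 hi) (by omega)))) subset_rfl)
  have h0 : nu μ (⋂ n, A n) = 0 := by
    have h1 : μ (⋂ n, D \ L n) = 0 := by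
      refine le_antisymm ?_ zero_le
      refine ge_of_tendsto ENNReal.tendsto_inv_nat_nhds_zero ?_
      filter_upwards [eventually_ge_atTop 1] with n hn
      refine (measure_mono ((Set.iInter_subset _ (n - 1)).trans (Set.sdiff_subset_sdiff_right
        (Set.subset_biUnion_of_mem (u := K) (by simp))))).trans ((hKm (n - 1)).le.trans ?_)
      gcongr
      exact_mod_cast (by omega : n ≤ n - 1 + 1)
    refine measure_mono_null (t := (⋂ n, D \ L n) ×ˢ Set.univ) ?_ ?_
    · intro z hz
      exact ⟨Set.mem_iInter.2 fun n => (Set.mem_iInter.1 hz n).2.1, trivial⟩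
    · rw [nu, Measure.prod_prod, h1, zero_mul]
  have h2 := tendsto_measure_iInter_atTop hAm hmono
    ⟨0, measure_ne_top_of_subset Set.inter_subset_left S.fin⟩
  rw [h0] at h2
  have h3 := (ENNReal.tendsto_toReal ENNReal.zero_ne_top).comp h2
  obtain ⟨n, hn⟩ := (h3.eventually_lt_const (by simpa using hε)).exists
  exact ⟨L n, hLc n, hLD n, hn⟩

/-- The limit of the diagonal of a word. -/
noncomputable def dlim (S : Win μ) (w : Word μ) : ℝ :=
  ∫ z in S.s ∩ w.p.fix ×ˢ Set.univ, w.h z ∂nu μ

theorem th_fix {p : PMap X} (hp : p.NS μ) :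
    ∀ᵐ z ∂nu μ, z.1 ∈ p.fix → th μ p z = z := by
  filter_upwards [ae_fst hp.dens_fix] with z hz hf
  ext
  · exact hf.2
  · show z.2 / (p.dens μ z.1).toReal = z.2
    rw [hz hf, ENNReal.toReal_one, div_one]

theorem dfun_meas (S : Win μ) (π : DiscreteQuotient X) (w : Word μ) :
    Measurable (dfun S π w) := by
  classical
  refine Measurable.ite ?_ w.h_meas measurable_const
  have h : MeasurableSet {x : X | π.proj x = π.proj (w.p.τ x)} :=
    (isClosed_eq π.proj_continuous (π.proj_continuous.comp w.p.τ.continuous)).measurableSet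
  exact S.meas.inter ((dz_meas _).inter ((th_meas _ S.meas).inter (h.preimage measurable_fst)))

theorem tendsto_diag_op [μ.Regular] (S : Win μ) (w : Word μ) :
    Tendsto (fun π => diag S π w.op) atBot (𝓝 (dlim S w : ℂ)) := by
  classical
  simp only [diag_op]
  refine (Complex.continuous_ofReal.tendsto _).comp ?_
  rw [Metric.tendsto_nhds]
  intro ε hε
  have hC : 0 ≤ |w.C| + 1 := by positivity
  have hD : MeasurableSet (w.p.dom \ w.p.fix) :=
    w.p.dom_clopen.isClosed.measurableSet.diff w.p.fix_isClosed.measurableSet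
  obtain ⟨K, hK, hKD, hsmall⟩ := exists_compact_small S hD (div_pos hε (by positivity : (0 : ℝ) < |w.C| + 1))
  filter_upwards [eventually_sep hK hKD] with π hπ
  have hF : MeasurableSet (w.p.fix ×ˢ (Set.univ : Set ℝ)) :=
    w.p.fix_isClosed.measurableSet.prod MeasurableSet.univ
  set B : Set (X × ℝ) := S.s ∩ ((w.p.dom \ w.p.fix) \ K) ×ˢ Set.univ with hB
  have hBm : MeasurableSet B :=
    S.meas.inter ((hD.diff hK.isClosed.measurableSet).prod MeasurableSet.univ)
  have hi1 : Integrable (dfun S π w) (nu μ) := by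
    refine Integrable.mono' ((integrableOn_const S.fin (C := |w.C| + 1)).integrable_indicator S.meas)
      (dfun_meas S π w).aestronglyMeasurable (Eventually.of_forall fun z => ?_)
    unfold dfun
    split_ifs with h
    · rw [Set.indicator_of_mem h.1, Real.norm_eq_abs]
      linarith [w.bd z, le_abs_self w.C]
    · simpa using Set.indicator_nonneg (fun _ _ => hC) z
  have hi2 : Integrable ((S.s ∩ w.p.fix ×ˢ Set.univ).indicator w.h) (nu μ) := by
    rw [integrable_indicator_iff (S.meas.inter hF)]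
    exact IntegrableOn.of_bound (measure_ne_top_of_subset Set.inter_subset_left S.fin).lt_top
      w.h_meas.aestronglyMeasurable w.C (Eventually.of_forall fun z => w.bd z)
  rw [dlim, ← integral_indicator (S.meas.inter hF), dist_eq_norm, ← integral_sub hi1 hi2]
  have hfin : nu μ B ≠ ∞ := measure_ne_top_of_subset Set.inter_subset_left S.fin
  refine lt_of_le_of_lt ((norm_integral_le_integral_norm _).trans (integral_mono_ae
    (hi1.sub hi2).norm ((integrableOn_const hfin (C := |w.C| + 1)).integrable_indicator hBm) ?_)) ?_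
  · filter_upwards [th_fix w.ns] with z hfix
    unfold dfun
    by_cases hf : z.1 ∈ w.p.fix
    · have hd : z ∈ dz w.p := ⟨hf.1, trivial⟩
      have h1 : π.proj z.1 = π.proj (w.p.τ z.1) := by rw [hf.2]
      by_cases hs : z ∈ S.s
      · rw [if_pos ⟨hs, hd, by rw [hfix hf]; exact hs, h1⟩,
          Set.indicator_of_mem (s := S.s ∩ w.p.fix ×ˢ Set.univ) ⟨hs, hf, trivial⟩, sub_self,
          norm_zero]
        exact Set.indicator_nonneg (fun _ _ => hC) z
      · rw [if_neg fun h => hs h.1, Set.indicator_of_notMem fun h : z ∈ S.s ∩ _ => hs h.1,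
          sub_self, norm_zero]
        exact Set.indicator_nonneg (fun _ _ => hC) z
    · rw [Set.indicator_of_notMem fun h : z ∈ S.s ∩ _ => hf h.2.1, sub_zero]
      split_ifs with h
      · have hz : z ∈ B := ⟨h.1, ⟨⟨h.2.1.1, hf⟩, fun hk => hπ _ hk h.2.2.2⟩, trivial⟩
        rw [Set.indicator_of_mem hz, Real.norm_eq_abs]
        linarith [w.bd z, le_abs_self w.C]
      · rw [norm_zero]; exact Set.indicator_nonneg (fun _ _ => hC) z
  · rw [integral_indicator hBm, setIntegral_const, smul_eq_mul]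
    exact (lt_div_iff₀ (by positivity)).1 hsmall

/-- The words span the algebra. -/
noncomputable def alg (μ : Measure X) [IsFiniteMeasure μ] :
    StarSubalgebra ℂ (H μ →L[ℂ] H μ) :=
  (StarAlgebra.adjoin ℂ (Set.range (Word.op (μ := μ)))).topologicalClosure

instance : IsClosed ((alg μ : StarSubalgebra ℂ (H μ →L[ℂ] H μ)) : Set (H μ →L[ℂ] H μ)) :=
  StarSubalgebra.isClosed_topologicalClosure _

theorem op_mem_alg (w : Word μ) : w.op ∈ alg μ :=
  StarSubalgebra.le_topologicalClosure _ (StarAlgebra.subset_adjoin ℂ _ ⟨w, rfl⟩)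

theorem op_one : (mulWord (μ := μ) (measurable_const (a := (1 : ℝ)))
    (C := 1) (fun _ => by simp)).op = 1 := by
  refine ContinuousLinearMap.ext fun f => Lp.ext ?_
  refine (coe_mulWord _ _ f).trans (Eventually.of_forall fun z => ?_)
  simp

theorem alg_induction {P : (H μ →L[ℂ] H μ) → Prop} (hc : IsClosed {A | P A})
    (hadd : ∀ A B, P A → P B → P (A + B)) (h0 : P 0) (hsmul : ∀ (c : ℂ) A, P A → P (c • A))
    (hop : ∀ w : Word μ, P w.op) {A : H μ →L[ℂ] H μ} (hA : A ∈ alg μ) : P A := by
  have hspan : (StarAlgebra.adjoin ℂ (Set.range (Word.op (μ := μ))) : Set (H μ →L[ℂ] H μ)) ⊆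
      {A | P A} := by
    intro a ha
    have h1 : a ∈ Submodule.span ℂ
        (Submonoid.closure (Set.range (Word.op (μ := μ)) ∪ star (Set.range (Word.op (μ := μ))))
          : Set (H μ →L[ℂ] H μ)) := by
      rw [← StarAlgebra.adjoin_eq_span]; exact ha
    refine Submodule.span_induction (fun b hb => ?_) h0 (fun x y _ _ => hadd x y)
      (fun c x _ => hsmul c x) h1
    suffices h : b ∈ Set.range (Word.op (μ := μ)) by obtain ⟨w, rfl⟩ := h; exact hop w
    refine Submonoid.closure_induction (fun x hx => ?_) ⟨_, op_one⟩ ?_ hb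
    · rcases hx with hx | hx
      · exact hx
      · obtain ⟨w, hw⟩ := Set.mem_star.1 hx
        exact ⟨w.adj, by rw [← w.star_op, hw, star_star]⟩
    · rintro _ _ _ _ ⟨w, rfl⟩ ⟨v, rfl⟩
      exact ⟨w.mul v, (w.op_mul v).symm⟩
  exact closure_minimal hspan hc hA

/-- The projection on a measurable set. -/
noncomputable def indWord (μ : Measure X) [IsFiniteMeasure μ] {s : Set (X × ℝ)}
    (hs : MeasurableSet s) : Word μ :=
  mulWord (measurable_const.indicator hs (f := fun _ => (1 : ℝ))) (C := 1)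
    fun z => by by_cases h : z ∈ s <;> simp [h]

/-- The projection on a measurable set. -/
noncomputable def proj (μ : Measure X) [IsFiniteMeasure μ] {s : Set (X × ℝ)}
    (hs : MeasurableSet s) : H μ →L[ℂ] H μ :=
  (indWord μ hs).op

theorem dlim_cyclic (S T : Win μ) (b c : Word μ) :
    dlim S ((b.mul (indWord μ T.meas)).mul c) = dlim T ((c.mul (indWord μ S.meas)).mul b) := by
  classical
  set w := (b.mul (indWord μ T.meas)).mul c with hw
  set v := (c.mul (indWord μ S.meas)).mul b with hv
  have hFw : MeasurableSet (w.p.fix ×ˢ (Set.univ : Set ℝ)) :=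
    w.p.fix_isClosed.measurableSet.prod MeasurableSet.univ
  have hFv : MeasurableSet (v.p.fix ×ˢ (Set.univ : Set ℝ)) :=
    v.p.fix_isClosed.measurableSet.prod MeasurableSet.univ
  set G : X × ℝ → ℝ := (T.s ∩ v.p.fix ×ˢ Set.univ).indicator v.h with hG
  have hGr : ∀ y, y ∉ rz b.p → G y = 0 := fun y hy => by
    refine Set.indicator_of_notMem (fun h => hy ⟨?_, trivial⟩) _
    obtain ⟨⟨⟨h1, _⟩, h2⟩, h3⟩ := h.2.1
    exact Eq.mp (congrArg (· ∈ b.p.rng) h3) (b.p.map_dom _ h2)
  have hGm : Measurable G := v.h_meas.indicator (T.meas.inter hFv)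
  have e1 : dlim T v = ∫ z in dz b.p, G (th μ b.p z) ∂nu μ := by
    rw [dlim, ← integral_indicator (T.meas.inter hFv), ← hG,
      ← setIntegral_eq_integral_of_forall_compl_eq_zero hGr,
      ← (th_mp b.ns).map_eq, integral_map (th_meas _).aemeasurable hGm.aestronglyMeasurable]
  have e2 : dlim S w = ∫ z in dz b.p, (S.s ∩ w.p.fix ×ˢ Set.univ).indicator w.h z ∂nu μ := by
    rw [dlim, ← integral_indicator (S.meas.inter hFw)]
    exact (setIntegral_eq_integral_of_forall_compl_eq_zero (s := dz b.p) fun z hz =>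
      Set.indicator_of_notMem (fun h : z ∈ S.s ∩ w.p.fix ×ˢ Set.univ =>
        hz (Set.mem_prod.2 ⟨h.2.1.1.1.1, trivial⟩)) _).symm
  rw [e1, e2]
  refine setIntegral_congr_ae (dz_meas _) ?_
  -- first coordinates and densities along the two composites
  have hbid := b.ns.comp (PMap.NS.idOn (μ := μ) Set.univ isClopen_univ)
  have hcid := c.ns.comp (PMap.NS.idOn (μ := μ) Set.univ isClopen_univ)
  have hid := th_idOn (μ := μ) (V := Set.univ) isClopen_univ
  have hq : ∀ {p : PMap X} (_ : p.NS μ) {P : X × ℝ → Prop}, (∀ᵐ y ∂nu μ, P y) →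
      ∀ᵐ z ∂nu μ, z ∈ dz p → P (th μ p z) := fun {p} hp {P} h =>
    (ae_restrict_iff' (dz_meas _)).1
      ((th_mp hp).quasiMeasurePreserving.ae (ae_restrict_of_ae h))
  filter_upwards [th_fix w.ns, th_comp hbid c.ns,
    th_comp b.ns (PMap.NS.idOn (μ := μ) Set.univ isClopen_univ),
    hq b.ns hid,
    hq b.ns (th_comp c.ns (PMap.NS.idOn (μ := μ) Set.univ isClopen_univ)), hid] with
    z hfix hcomp hb hbi hci hidz hzd
  set y := th μ b.p z with hy
  have hby : th μ (b.p.comp (PMap.idOn Set.univ isClopen_univ)) z = y := by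
    rw [hb, hbi hzd (Set.mem_univ _)]
  have hwh : w.h z = b.h z * T.s.indicator 1 y * c.h y := by
    show b.h z * T.s.indicator (fun _ => (1 : ℝ)) (th μ b.p z) *
      c.h (th μ (b.p.comp (PMap.idOn Set.univ isClopen_univ)) z) = _
    rw [hby]; rfl
  have hiff : z.1 ∈ w.p.fix ↔ y.1 ∈ v.p.fix := by
    show (z.1 ∈ (b.p.dom ∩ b.p.τ ⁻¹' Set.univ) ∩ b.p.τ ⁻¹' c.p.dom ∧ c.p.τ (b.p.τ z.1) = z.1) ↔
      (b.p.τ z.1 ∈ (c.p.dom ∩ c.p.τ ⁻¹' Set.univ) ∩ c.p.τ ⁻¹' b.p.dom ∧
        b.p.τ (c.p.τ (b.p.τ z.1)) = b.p.τ z.1)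
    constructor
    · rintro ⟨⟨_, hc⟩, he⟩
      exact ⟨⟨⟨hc, trivial⟩, show c.p.τ (b.p.τ z.1) ∈ b.p.dom by rw [he]; exact hzd.1⟩, by rw [he]⟩
    · rintro ⟨⟨⟨hc, _⟩, hd⟩, he⟩
      refine ⟨⟨⟨hzd.1, trivial⟩, hc⟩, ?_⟩
      rw [← b.p.left_inv _ hd, he, b.p.left_inv _ hzd.1]
  by_cases hf : z.1 ∈ w.p.fix
  · have hcy : th μ c.p y = z := by
      rw [← hby, ← hcomp]
      exact hfix hf
    have hvh : v.h y = c.h y * S.s.indicator 1 z * b.h z := by
      have h1 := hci hzd
      show c.h y * S.s.indicator (fun _ => (1 : ℝ)) (th μ c.p y) *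
        b.h (th μ (c.p.comp (PMap.idOn Set.univ isClopen_univ)) y) = _
      rw [h1, hcy, hidz (Set.mem_univ _)]; rfl
    by_cases h1 : z ∈ S.s <;> by_cases h2 : y ∈ T.s <;>
      simp [hG, hf, hiff.1 hf, h1, h2, hwh, hvh] <;> ring
  · have h2 : y.1 ∉ v.p.fix := fun h => hf (hiff.2 h)
    simp [hG, hf, h2]

theorem tendsto_cyclic [μ.Regular] (S T : Win μ) {B C : H μ →L[ℂ] H μ} (hB : B ∈ alg μ)
    (hC : C ∈ alg μ) :
    Tendsto (fun π => diag S π (B * proj μ T.meas * C) - diag T π (C * proj μ S.meas * B))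
      atBot (𝓝 0) := by
  set K := (nu μ).real S.s * ‖proj μ T.meas‖ + (nu μ).real T.s * ‖proj μ S.meas‖ with hK
  set f : (H μ →L[ℂ] H μ) → (H μ →L[ℂ] H μ) → DiscreteQuotient X → ℂ := fun B C π =>
    diag S π (B * proj μ T.meas * C) - diag T π (C * proj μ S.meas * B) with hf
  have hK0 : 0 ≤ K := by positivity
  have hbd : ∀ B C π, ‖f B C π‖ ≤ K * ‖B‖ * ‖C‖ := fun B C π => by
    refine (norm_sub_le _ _).trans ?_
    refine (add_le_add ((norm_diag_le _ _ _).trans (mul_le_mul_of_nonneg_left
      ((norm_mul_le _ _).trans (mul_le_mul_of_nonneg_right (norm_mul_le _ _) (norm_nonneg _)))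
      measureReal_nonneg)) ((norm_diag_le _ _ _).trans (mul_le_mul_of_nonneg_left
      ((norm_mul_le _ _).trans (mul_le_mul_of_nonneg_right (norm_mul_le _ _) (norm_nonneg _)))
      measureReal_nonneg))).trans_eq ?_
    rw [hK]; ring
  have hl : ∀ (a : ℂ) B B' C π, f (a • B + B') C π = a * f B C π + f B' C π := fun a B B' C π => by
    simp only [hf, add_mul, mul_add, smul_mul_assoc, mul_smul_comm, diag_add, diag_smul]; ring
  have hr : ∀ (a : ℂ) B C C' π, f B (a • C + C') π = a * f B C π + f B C' π := fun a B C C' π => by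
    simp only [hf, add_mul, mul_add, smul_mul_assoc, mul_smul_comm, diag_add, diag_smul]; ring
  -- the set of good elements is closed, and linear in each variable
  have closed : ∀ g : (H μ →L[ℂ] H μ) → DiscreteQuotient X → ℂ,
      (∀ A A' π, g (A - A') π = g A π - g A' π) → (∃ R : ℝ, ∀ A π, ‖g A π‖ ≤ R * ‖A‖) →
      IsClosed {A | Tendsto (g A) atBot (𝓝 0)} := by
    rintro g hsub ⟨R, hR⟩
    refine isClosed_of_closure_subset fun A hA => ?_
    rw [Set.mem_ofPred_eq, NormedAddGroup.tendsto_nhds_zero]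
    intro ε hε
    obtain ⟨A', hA', hd⟩ := Metric.mem_closure_iff.1 hA (ε / 2 / (|R| + 1)) (by positivity)
    filter_upwards [NormedAddGroup.tendsto_nhds_zero.1 hA' (ε / 2) (by positivity)] with π hπ
    have h1 : ‖g (A - A') π‖ ≤ ε / 2 := by
      refine (hR _ π).trans ?_
      rw [dist_eq_norm] at hd
      calc R * ‖A - A'‖ ≤ (|R| + 1) * (ε / 2 / (|R| + 1)) :=
            mul_le_mul (by linarith [le_abs_self R]) hd.le (norm_nonneg _) (by positivity)
        _ = ε / 2 := by field_simp
    rw [hsub] at h1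
    calc ‖g A π‖ = ‖(g A π - g A' π) + g A' π‖ := by rw [sub_add_cancel]
      _ ≤ ‖g A π - g A' π‖ + ‖g A' π‖ := norm_add_le _ _
      _ < ε := by linarith
  have subl : ∀ A A' C π, f (A - A') C π = f A C π - f A' C π := fun A A' C π => by
    have := hl (-1) A' A C π
    rw [neg_one_smul] at this
    rw [sub_eq_neg_add, this]; ring
  have subr : ∀ B A A' π, f B (A - A') π = f B A π - f B A' π := fun B A A' π => by
    have := hr (-1) B A' A π
    rw [neg_one_smul] at this
    rw [sub_eq_neg_add, this]; ring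
  have z1 : ∀ C π, f 0 C π = 0 := fun C π => by simp [hf, diag_zero]
  have z2 : ∀ B π, f B 0 π = 0 := fun B π => by simp [hf, diag_zero]
  have words : ∀ b c : Word μ, Tendsto (f b.op c.op) atBot (𝓝 0) := fun b c => by
    have h1 := tendsto_diag_op S ((b.mul (indWord μ T.meas)).mul c)
    have h2 := tendsto_diag_op T ((c.mul (indWord μ S.meas)).mul b)
    rw [dlim_cyclic S T b c] at h1
    have := h1.sub h2
    simp only [← Word.op_mul, sub_self] at this
    exact this
  have step1 : ∀ (b : Word μ) C, C ∈ alg μ → Tendsto (f b.op C) atBot (𝓝 0) := fun b C hC =>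
    alg_induction (P := fun C => Tendsto (f b.op C) atBot (𝓝 0))
      (closed (f b.op) (subr b.op) ⟨K * ‖b.op‖, hbd b.op⟩)
      (fun A A' h h' => by
        have := h.add h'
        rw [add_zero] at this
        refine this.congr fun π => ?_
        have e := hr 1 b.op A A' π
        rw [one_smul, one_mul] at e
        exact e.symm)
      (tendsto_const_nhds.congr fun π => (z2 b.op π).symm)
      (fun a A h => by
        have := h.const_mul a
        rw [mul_zero] at this
        refine this.congr fun π => ?_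
        have e := hr a b.op A 0 π
        rw [add_zero, z2, add_zero] at e
        exact e.symm) (fun c => words b c) hC
  exact alg_induction (P := fun B => Tendsto (f B C) atBot (𝓝 0))
    (closed (fun B => f B C) (fun A A' => subl A A' C) ⟨K * ‖C‖, fun A π => (hbd A C π).trans_eq
      (by ring)⟩)
    (fun A A' h h' => by
      have := h.add h'
      rw [add_zero] at this
      refine this.congr fun π => ?_
      have e := hl 1 A A' C π
      rw [one_smul, one_mul] at e
      exact e.symm)
    (tendsto_const_nhds.congr fun π => (z1 C π).symm)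
    (fun a A h => by
      have := h.const_mul a
      rw [mul_zero] at this
      refine this.congr fun π => ?_
      have e := hl a A 0 C π
      rw [add_zero, z1, add_zero] at e
      exact e.symm) (fun b => step1 b C hC) hB

end Vale.Agent.P078.AllMasa.Lift
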