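import Vale.Agent.P078.AllMasa.Defect.Density
import Mathlib.Analysis.CStarAlgebra.ContinuousLinearMap
import Mathlib.MeasureTheory.Function.L2Space

/-! The lifted space `X × (0, ∞)`, on which nonsingular partial homeomorphisms preserve the
measure, and the operators of weighted translation on its square integrable functions. -/

namespace Vale.Agent.P078.AllMasa.Lift

set_option linter.unusedSectionVars false

open Filter Topology MeasureTheory ComplexConjugate
open Vale.Agent.P078.Tracial
open scoped ENNReal InnerProductSpace ComplexOrder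

variable {X : Type} [TopologicalSpace X] [CompactSpace X] [T2Space X] [TotallyDisconnectedSpace X]
variable [MeasurableSpace X] [BorelSpace X]
variable (μ : Measure X)

/-- The lifted measure. -/
noncomputable def nu : Measure (X × ℝ) := μ.prod (volume.restrict (Set.Ioi 0))

instance [IsFiniteMeasure μ] : SFinite (nu μ) := by unfold nu; infer_instance

/-- The square integrable functions on the lifted space. -/
noncomputable abbrev H := Lp ℂ 2 (nu μ)

/-- The lifted translation. -/
noncomputable def th (p : PMap X) : X × ℝ → X × ℝ :=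
  fun z => (p.τ z.1, z.2 / (p.dens μ z.1).toReal)

/-- The lifted domain. -/
def dz (p : PMap X) : Set (X × ℝ) := p.dom ×ˢ Set.univ

/-- The lifted range. -/
def rz (p : PMap X) : Set (X × ℝ) := p.rng ×ˢ Set.univ

variable {μ}

theorem dz_meas (p : PMap X) : MeasurableSet (dz p) :=
  p.dom_clopen.isClosed.measurableSet.prod MeasurableSet.univ

theorem rz_meas (p : PMap X) : MeasurableSet (rz p) :=
  p.rng_clopen.isClosed.measurableSet.prod MeasurableSet.univ

theorem th_meas (p : PMap X) : Measurable (th μ p) :=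
  (p.τ.continuous.measurable.comp measurable_fst).prodMk
    (measurable_snd.div (p.measurable_dens.comp measurable_fst).ennreal_toReal)

theorem lintegral_scale {r : ℝ} (hr : 0 < r) {g : ℝ → ℝ≥0∞} (hg : Measurable g) :
    ∫⁻ u in Set.Ioi 0, g (u / r) = ENNReal.ofReal r * ∫⁻ u in Set.Ioi 0, g u := by
  rw [← lintegral_indicator measurableSet_Ioi, ← lintegral_indicator measurableSet_Ioi]
  have e : ∀ u : ℝ, (Set.Ioi 0).indicator (fun u => g (u / r)) u =
      (Set.Ioi 0).indicator g (r⁻¹ * u) := fun u => by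
    by_cases hu : 0 < u
    · simp [hu, hr, div_eq_inv_mul]
    · have : ¬ 0 < r⁻¹ * u := fun h => hu ((mul_pos_iff_of_pos_left (inv_pos.2 hr)).1 h)
      simp [hu, this]
  simp only [e]
  rw [← lintegral_map (hg.indicator measurableSet_Ioi) (measurable_const_mul _),
    Real.map_volume_mul_left (inv_ne_zero hr.ne'), lintegral_smul_measure, inv_inv,
    abs_of_pos hr, smul_eq_mul]

variable [IsFiniteMeasure μ] {p q : PMap X}

theorem dens_pos (hp : p.NS μ) :
    ∀ᵐ x ∂μ, x ∈ p.dom → 0 < (p.dens μ x).toReal := by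
  filter_upwards [hp.dens_mul_symm, PMap.NS.dens_lt_top (p := p)] with x h1 h2 hx
  refine ENNReal.toReal_pos (fun h0 => ?_) h2.ne
  simp [hx, h0] at h1

theorem ae_fst {P : X → Prop} (h : ∀ᵐ x ∂μ, P x) : ∀ᵐ z ∂nu μ, P z.1 :=
  Measure.quasiMeasurePreserving_fst.ae h

theorem ae_snd_pos : ∀ᵐ z ∂nu μ, 0 < z.2 :=
  Measure.quasiMeasurePreserving_snd.ae (ae_restrict_mem measurableSet_Ioi)

theorem lintegral_th (hp : p.NS μ) {F : X × ℝ → ℝ≥0∞} (hF : Measurable F) :
    ∫⁻ z in dz p, F (th μ p z) ∂nu μ = ∫⁻ z in rz p, F z ∂nu μ := by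
  set G : X → ℝ≥0∞ := fun y => ∫⁻ u in Set.Ioi 0, F (y, u) with hG
  have hGm : Measurable G := hF.lintegral_prod_right'
  have hR : ∀ V : Set X, (nu μ).restrict (V ×ˢ Set.univ) =
      (μ.restrict V).prod (volume.restrict (Set.Ioi 0)) := fun V => by
    rw [nu, ← Measure.prod_restrict, Measure.restrict_univ]
  rw [dz, rz, hR, hR, lintegral_prod (fun z => F (th μ p z)) (hF.comp (th_meas p)).aemeasurable,
    lintegral_prod F hF.aemeasurable]
  have e : ∀ᵐ x ∂μ.restrict p.dom,
      ∫⁻ u in Set.Ioi 0, F (th μ p (x, u)) = p.dens μ x * G (p.τ x) := by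
    rw [ae_restrict_iff' p.dom_clopen.isClosed.measurableSet]
    filter_upwards [dens_pos hp, PMap.NS.dens_lt_top (p := p)] with x h1 h2 hx
    show ∫⁻ u in Set.Ioi 0, F (p.τ x, u / (p.dens μ x).toReal) = _
    rw [lintegral_scale (h1 hx) (g := fun u => F (p.τ x, u)) (hF.comp measurable_prodMk_left),
      ENNReal.ofReal_toReal h2.ne]
  have hd := p.dom_clopen.isClosed.measurableSet
  rw [lintegral_congr_ae e, ← lintegral_indicator hd]
  have e2 : ∀ x, p.dom.indicator (fun x => p.dens μ x * G (p.τ x)) x =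
      p.dens μ x * p.dom.indicator (fun x => G (p.τ x)) x := fun x => by
    by_cases hx : x ∈ p.dom <;> simp [hx]
  simp only [e2]
  rw [hp.lintegral_dens (F := p.dom.indicator fun x => G (p.τ x))
    ((hGm.comp p.τ.continuous.measurable).indicator hd)]
  refine setLIntegral_congr_fun p.rng_clopen.isClosed.measurableSet fun y hy => ?_
  show p.dom.indicator (fun x => G (p.τ x)) (p.σ y) = _
  rw [Set.indicator_of_mem (p.map_rng y hy), p.right_inv y hy]

theorem th_mp (hp : p.NS μ) :
    MeasurePreserving (th μ p) ((nu μ).restrict (dz p)) ((nu μ).restrict (rz p)) := by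
  refine ⟨th_meas p, Measure.ext fun A hA => ?_⟩
  rw [Measure.map_apply (th_meas p) hA, ← lintegral_indicator_one ((th_meas p) hA),
    ← lintegral_indicator_one hA]
  exact lintegral_th hp (F := A.indicator 1) (measurable_const.indicator hA)

theorem th_comp (hp : p.NS μ) (hq : q.NS μ) :
    ∀ᵐ z ∂nu μ, th μ (p.comp q) z = th μ q (th μ p z) := by
  filter_upwards [ae_fst (hp.dens_comp hq)] with z hz
  ext
  · rfl
  · show z.2 / ((p.comp q).dens μ z.1).toReal =
      z.2 / (p.dens μ z.1).toReal / (q.dens μ (p.τ z.1)).toReal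
    rw [hz, ENNReal.toReal_mul, div_div]

theorem th_symm (hp : p.NS μ) : ∀ᵐ z ∂nu μ, z ∈ dz p → th μ p.symm (th μ p z) = z := by
  filter_upwards [ae_fst hp.dens_mul_symm] with z hz hd
  ext
  · exact p.left_inv _ hd.1
  · show z.2 / (p.dens μ z.1).toReal / (p.symm.dens μ (p.τ z.1)).toReal = z.2
    rw [div_div, ← ENNReal.toReal_mul, hz, Set.indicator_of_mem hd.1, Pi.one_apply,
      ENNReal.toReal_one, div_one]

theorem th_idOn {V : Set X} (hV : IsClopen V) :
    ∀ᵐ z ∂nu μ, z.1 ∈ V → th μ (PMap.idOn V hV) z = z := by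
  filter_upwards [ae_fst (PMap.idOn_dens (μ := μ) hV)] with z hz hd
  ext
  · rfl
  · show z.2 / ((PMap.idOn V hV).dens μ z.1).toReal = z.2
    rw [hz, Set.indicator_of_mem hd, Pi.one_apply, ENNReal.toReal_one, div_one]

/-- A bounded measurable weight on a nonsingular translation. -/
structure Word (μ : Measure X) where
  p : PMap X
  ns : p.NS μ
  h : X × ℝ → ℝ
  h_meas : Measurable h
  C : ℝ
  bd : ∀ z, |h z| ≤ C

namespace Word

/-- The action on functions. -/
noncomputable def fn (w : Word μ) (f : X × ℝ → ℂ) : X × ℝ → ℂ :=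
  (dz w.p).indicator fun z => (w.h z : ℂ) * f (th μ w.p z)

theorem fn_congr (w : Word μ) {f g : X × ℝ → ℂ} (h : f =ᵐ[nu μ] g) :
    w.fn f =ᵐ[nu μ] w.fn g := by
  have h1 := ae_imp_of_ae_restrict
    ((th_mp w.ns).quasiMeasurePreserving.ae_eq (ae_restrict_of_ae h))
  filter_upwards [h1] with z hz
  by_cases hd : z ∈ dz w.p
  · simp [fn, hd, show f (th μ w.p z) = g (th μ w.p z) from hz hd]
  · simp [fn, hd]

theorem eLpNorm_fn (w : Word μ) {f : X × ℝ → ℂ} (hf : MemLp f 2 (nu μ)) :
    MemLp (w.fn f) 2 (nu μ) ∧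
      eLpNorm (w.fn f) 2 (nu μ) ≤ ENNReal.ofReal w.C * eLpNorm f 2 (nu μ) := by
  have hf' : MemLp (fun z => f (th μ w.p z)) 2 ((nu μ).restrict (dz w.p)) :=
    (hf.restrict _).comp_measurePreserving (th_mp w.ns)
  have hb : ∀ᵐ z ∂(nu μ).restrict (dz w.p),
      ‖(w.h z : ℂ) * f (th μ w.p z)‖ ≤ w.C * ‖f (th μ w.p z)‖ := by
    refine Eventually.of_forall fun z => ?_
    rw [norm_mul, Complex.norm_real, Real.norm_eq_abs]
    exact mul_le_mul_of_nonneg_right (w.bd z) (norm_nonneg _)
  have hm : AEStronglyMeasurable (fun z => (w.h z : ℂ) * f (th μ w.p z))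
      ((nu μ).restrict (dz w.p)) :=
    (Complex.measurable_ofReal.comp w.h_meas).aestronglyMeasurable.mul hf'.aestronglyMeasurable
  refine ⟨(memLp_indicator_iff_restrict (dz_meas _)).2 (hf'.of_le_mul hm hb), ?_⟩
  rw [fn, eLpNorm_indicator_eq_eLpNorm_restrict (dz_meas _)]
  refine (eLpNorm_le_mul_eLpNorm_of_ae_le_mul hb 2).trans ?_
  refine mul_le_mul_right ?_ _
  exact (eLpNorm_comp_measurePreserving (g := f) hf.aestronglyMeasurable.restrict
    (th_mp w.ns)).trans_le (eLpNorm_mono_measure f Measure.restrict_le_self)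

/-- The operator of a word. -/
noncomputable def op (w : Word μ) : H μ →L[ℂ] H μ :=
  LinearMap.mkContinuous
    { toFun := fun f => (w.eLpNorm_fn (Lp.memLp f)).1.toLp _
      map_add' := fun f g => by
        rw [← MemLp.toLp_add, MemLp.toLp_eq_toLp_iff]
        refine (w.fn_congr (Lp.coeFn_add f g)).trans (Eventually.of_forall fun z => ?_)
        by_cases hz : z ∈ dz w.p <;> simp [fn, hz, mul_add]
      map_smul' := fun c f => by
        rw [RingHom.id_apply, ← MemLp.toLp_const_smul, MemLp.toLp_eq_toLp_iff]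
        refine (w.fn_congr (Lp.coeFn_smul c f)).trans (Eventually.of_forall fun z => ?_)
        by_cases hz : z ∈ dz w.p <;> simp [fn, hz, mul_left_comm] }
    (max w.C 0) fun f => by
      show ‖(w.eLpNorm_fn (Lp.memLp f)).1.toLp _‖ ≤ _
      rw [Lp.norm_toLp, Lp.norm_def, ← ENNReal.toReal_ofReal (le_max_right w.C 0),
        ← ENNReal.toReal_mul, ENNReal.ofReal_max, ENNReal.ofReal_zero, max_eq_left zero_le]
      exact ENNReal.toReal_mono (ENNReal.mul_ne_top ENNReal.ofReal_ne_top (Lp.eLpNorm_ne_top f))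
        (w.eLpNorm_fn (Lp.memLp f)).2

theorem coe_op (w : Word μ) (f : H μ) : ⇑(w.op f) =ᵐ[nu μ] w.fn f :=
  MemLp.coeFn_toLp (w.eLpNorm_fn (Lp.memLp f)).1

/-- The product of two words. -/
noncomputable def mul (w v : Word μ) : Word μ where
  p := w.p.comp v.p
  ns := w.ns.comp v.ns
  h z := w.h z * v.h (th μ w.p z)
  h_meas := w.h_meas.mul (v.h_meas.comp (th_meas _))
  C := w.C * v.C
  bd z := by
    rw [abs_mul]
    exact mul_le_mul (w.bd z) (v.bd _) (abs_nonneg _) ((abs_nonneg _).trans (w.bd z))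

theorem op_mul (w v : Word μ) : w.op * v.op = (w.mul v).op := by
  refine ContinuousLinearMap.ext fun f => Lp.ext ?_
  show ⇑(w.op (v.op f)) =ᵐ[nu μ] _
  refine (w.coe_op _).trans ?_
  refine (w.fn_congr (v.coe_op f)).trans ?_
  refine EventuallyEq.trans ?_ ((w.mul v).coe_op f).symm
  filter_upwards [th_comp w.ns v.ns] with z hz
  by_cases h1 : z ∈ dz w.p
  · by_cases h2 : th μ w.p z ∈ dz v.p
    · have h3 : z ∈ dz (w.mul v).p := ⟨⟨h1.1, h2.1⟩, trivial⟩
      simp only [fn, Set.indicator_of_mem h1, Set.indicator_of_mem h2, Set.indicator_of_mem h3]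
      show _ = ((w.h z * v.h (th μ w.p z) : ℝ) : ℂ) * f (th μ (w.p.comp v.p) z)
      rw [hz]; push_cast; ring
    · have h3 : z ∉ dz (w.mul v).p := fun h => h2 ⟨h.1.2, trivial⟩
      simp only [fn, Set.indicator_of_mem h1, Set.indicator_of_notMem h2,
        Set.indicator_of_notMem h3, mul_zero]
  · have h3 : z ∉ dz (w.mul v).p := fun h => h1 ⟨h.1.1, trivial⟩
    simp only [fn, Set.indicator_of_notMem h1, Set.indicator_of_notMem h3]

/-- The adjoint of a word. -/
noncomputable def adj (w : Word μ) : Word μ where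
  p := w.p.symm
  ns := w.ns.symm
  h z := w.h (th μ w.p.symm z)
  h_meas := w.h_meas.comp (th_meas _)
  C := w.C
  bd z := w.bd _

theorem star_op (w : Word μ) : star w.op = w.adj.op := by
  rw [ContinuousLinearMap.star_eq_adjoint, eq_comm, ContinuousLinearMap.eq_adjoint_iff]
  intro f g
  rw [L2.inner_def, L2.inner_def]
  set F : X × ℝ → ℂ := fun z => (w.adj.h z : ℂ) * (conj (f (th μ w.p.symm z)) * g z) with hF
  have e1 : (fun z => ⟪w.adj.op f z, g z⟫_ℂ) =ᵐ[nu μ] (rz w.p).indicator F := by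
    filter_upwards [w.adj.coe_op f] with z hz
    rw [hz, RCLike.inner_apply]
    by_cases h : z ∈ rz w.p
    · have h' : z ∈ dz w.adj.p := h
      simp only [fn, Set.indicator_of_mem h', Set.indicator_of_mem h, hF, map_mul,
        Complex.conj_ofReal]
      show g z * (_ * conj (f (th μ w.p.symm z))) = _
      ring
    · have h' : z ∉ dz w.adj.p := h
      simp [fn, h', h]
  have e2 : (fun z => ⟪f z, w.op g z⟫_ℂ) =ᵐ[nu μ]
      (dz w.p).indicator fun z => F (th μ w.p z) := by
    filter_upwards [w.coe_op g, th_symm w.ns] with z hz hs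
    rw [hz, RCLike.inner_apply]
    by_cases h : z ∈ dz w.p
    · simp only [fn, Set.indicator_of_mem h, hF, adj, hs h]
      ring
    · simp [fn, h]
  rw [integral_congr_ae e1, integral_congr_ae e2, integral_indicator (rz_meas _),
    integral_indicator (dz_meas _)]
  have hFm : AEStronglyMeasurable F ((nu μ).restrict (rz w.p)) := by
    refine (Complex.measurable_ofReal.comp w.adj.h_meas).aestronglyMeasurable.mul
      (AEStronglyMeasurable.mul ?_ (Lp.aestronglyMeasurable g).restrict)
    exact Complex.continuous_conj.comp_aestronglyMeasurable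
      ((Lp.aestronglyMeasurable f).restrict.comp_measurePreserving (th_mp w.ns.symm))
  rw [← (th_mp w.ns).map_eq] at hFm ⊢
  exact integral_map (th_meas _).aemeasurable hFm

end Word

/-- Multiplication by a bounded measurable function. -/
noncomputable def mulWord {φ : X × ℝ → ℝ} (hm : Measurable φ) {C : ℝ} (hb : ∀ z, |φ z| ≤ C) :
    Word μ :=
  ⟨PMap.idOn Set.univ isClopen_univ, PMap.NS.idOn _ _, φ, hm, C, hb⟩

theorem coe_mulWord {φ : X × ℝ → ℝ} (hm : Measurable φ) {C : ℝ} (hb : ∀ z, |φ z| ≤ C) (f : H μ) :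
    ⇑((mulWord (μ := μ) hm hb).op f) =ᵐ[nu μ] fun z => (φ z : ℂ) * f z := by
  filter_upwards [(mulWord (μ := μ) hm hb).coe_op f,
    th_idOn (μ := μ) (V := Set.univ) isClopen_univ] with z hz h1
  rw [hz]
  have h : z ∈ dz (mulWord (μ := μ) hm hb).p := ⟨Set.mem_univ _, trivial⟩
  simp only [Word.fn, Set.indicator_of_mem h]
  show (φ z : ℂ) * f (th μ (PMap.idOn Set.univ isClopen_univ) z) = _
  rw [h1 (Set.mem_univ _)]

end Vale.Agent.P078.AllMasa.Lift
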