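import Vale.Agent.P078.AllMasa.Defect.Link.Rep

/-! The defect has the same diagonal as its lift. -/

namespace Vale.Agent.P078.AllMasa.Lift

set_option linter.unusedSectionVars false

open Filter Topology MeasureTheory
open Vale.Agent.P078.Tracial
open scoped ENNReal InnerProductSpace ComplexOrder

variable {X : Type} [TopologicalSpace X] [CompactSpace X] [T2Space X] [TotallyDisconnectedSpace X]
variable [MeasurableSpace X] [BorelSpace X]

/-- The square of the linearised budget on functions. -/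
noncomputable def zC {r : ℕ} (d : LData X r) : Module.End ℝ C(X, ℝ) :=
  1 - d.Tn⁻¹ • ∑ c, d.Lc c * d.Lc c

theorem L_step {r : ℕ} (d : LData X r) (w : Fin r → C(X, ℝ)) :
    d.L (d.step w) = zC d (d.L w) := by
  rw [LData.L_apply, zC]
  simp [LData.step_apply, map_sub, Finset.sum_sub_distrib, Finset.smul_sum, LData.L_apply]
  exact Finset.sum_comm

theorem L_step_pow {r : ℕ} (d : LData X r) (k : ℕ) (w : Fin r → C(X, ℝ)) :
    d.L ((d.step ^ k) w) = (zC d ^ k) (d.L w) := by
  induction k with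
  | zero => simp
  | succ k ih => rw [pow_succ', Module.End.mul_apply, L_step, ih, pow_succ', Module.End.mul_apply]

theorem step_pow_apply {r : ℕ} (d : LData X r) (k : ℕ) (w : Fin r → C(X, ℝ)) (c : Fin r) :
    (d.step ^ k) w c =
      w c - d.Tn⁻¹ • d.Lc c ((∑ i ∈ Finset.range k, zC d ^ i) (d.L w)) := by
  induction k with
  | zero => simp
  | succ k ih =>
    rw [pow_succ', Module.End.mul_apply, LData.step_apply, L_step_pow, ih, Finset.sum_range_succ,
      LinearMap.add_apply, map_add, smul_add, sub_sub]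

theorem defect_eq {r : ℕ} {d : LData X r} (hd : d.Ok) (n : ℕ) (π : DiscreteQuotient X) (c : Fin r)
    (j : π) :
    d.act c * cellFn π j - d.P n (d.P n (unitVec π c j)) c =
      (d.Lc c * (d.Tn⁻¹ • ∑ i ∈ Finset.range (2 * n), zC d ^ i) * d.Lc c) (cellFn π j) := by
  have h1 : d.L (unitVec π c j) = d.Lc c (cellFn π j) := by
    rw [LData.L_apply, Finset.sum_eq_single c
      (fun b _ h => by simp [unitVec, Pi.single_eq_of_ne h]) (by simp)]
    simp [unitVec]
  have h2 : d.cut (unitVec π c j) c = d.act c * cellFn π j := by simp [LData.cut_apply, unitVec]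
  rw [LData.P_P hd, LData.P, LinearMap.comp_apply, step_pow_apply, h2, sub_sub_cancel,
    LData.L_cut hd, h1]
  simp

theorem tendsto_link {μ : Measure X} [IsFiniteMeasure μ] [μ.Regular] {r : ℕ} {d : LData X r}
    (hd : d.Ok) (hns : ∀ c k, ((d.F c).p k).NS μ) (n : ℕ) :
    Tendsto (fun π : DiscreteQuotient X =>
      ((∑ c, ∑ j : π, ∫ x, cellFn π j x
          * (d.act c x * cellFn π j x - d.P n (d.P n (unitVec π c j)) c x) ∂μ : ℝ) : ℂ)
        - ∑ c, diag (Win.one μ) π (Aop μ d hns c * qOp μ d hns n * Aop μ d hns c))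
      atBot (𝓝 0) := by
  set PL : Fin r → Module.End ℝ C(X, ℝ) × (H μ →L[ℂ] H μ) := fun c =>
    (d.Lc c, Aop μ d hns c) with hPL
  have hL : ∀ c, PL c ∈ repSpan μ := fun c => by
    have hK : (((d.F c).Kl,
        ∑ k, (gWord μ ((d.F c).g k) ((d.F c).p k) (hns c k)).op) :
          Module.End ℝ C(X, ℝ) × (H μ →L[ℂ] H μ)) ∈ repSpan μ := by
      have : ∑ k, ((mulC ((d.F c).g k) * ((d.F c).p k).Tl,
          (gWord μ ((d.F c).g k) ((d.F c).p k) (hns c k)).op) :
            Module.End ℝ C(X, ℝ) × (H μ →L[ℂ] H μ)) ∈ repSpan μ :=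
        (repSpan μ).sum_mem fun k _ => Submodule.subset_span ⟨_, _, _, rfl⟩
      convert this using 1
      exact Prod.ext (by simp [Fam.Kl, Prod.fst_sum]) (by simp [Prod.snd_sum])
    have := mul_mem_rep (mul_mem_rep (mulC_mem_rep (μ := μ) (d.act c))
      ((repSpan μ).sub_mem (mulC_mem_rep (μ := μ) (d.e c)) hK)) (mulC_mem_rep (μ := μ) (d.act c))
    convert this using 1
    exact Prod.ext (by simp [hPL, LData.Lc_eq]) (by simp [hPL, Aop])
  set Pq : Module.End ℝ C(X, ℝ) × (H μ →L[ℂ] H μ) :=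
    d.Tn⁻¹ • ∑ i ∈ Finset.range (2 * n), (1 - d.Tn⁻¹ • ∑ c, PL c * PL c) ^ i
  have hq : Pq ∈ repSpan μ := (repSpan μ).smul_mem _ ((repSpan μ).sum_mem fun i _ =>
    pow_mem_rep ((repSpan μ).sub_mem one_mem_rep ((repSpan μ).smul_mem _
      ((repSpan μ).sum_mem fun c _ => mul_mem_rep (hL c) (hL c)))) i)
  have h := tendsto_finsetSum (Finset.univ : Finset (Fin r)) fun c _ =>
    tendsto_rep (mul_mem_rep (mul_mem_rep (hL c) hq) (hL c))
  rw [Finset.sum_const_zero] at h
  refine h.congr fun π => ?_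
  rw [Complex.ofReal_sum, ← Finset.sum_sub_distrib]
  refine Finset.sum_congr rfl fun c _ => ?_
  have e2 : Pq.2 = qOp μ d hns n := by
    have hsm : ∀ A : H μ →L[ℂ] H μ, d.Tn⁻¹ • A = ((d.Tn⁻¹ : ℝ) : ℂ) • A := fun A =>
      (algebraMap_smul ℂ _ A).symm
    simp only [Pq, qOp, Mop, hPL, Prod.smul_snd, Prod.snd_sum, Prod.pow_snd, Prod.snd_sub,
      Prod.snd_one, Prod.snd_mul, hsm]
  have e1 : Pq.1 = d.Tn⁻¹ • ∑ i ∈ Finset.range (2 * n), zC d ^ i := by
    simp [Pq, zC, hPL, Prod.fst_sum, Prod.pow_fst]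
  simp only [Prod.fst_mul, Prod.snd_mul, e1, e2, hPL, tauC]
  congr 2
  refine Finset.sum_congr rfl fun j _ => integral_congr_ae (Eventually.of_forall fun x => ?_)
  simp only [← defect_eq hd, ContinuousMap.sub_apply, ContinuousMap.mul_apply]

end Vale.Agent.P078.AllMasa.Lift
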