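import Vale.Agent.P078.AllMasa.Defect.Super

/-! The low part of the defect: the maximum principle below the level of the window. -/

namespace Vale.Agent.P078.AllMasa.Lift

set_option linter.unusedSectionVars false

open Filter Topology MeasureTheory
open Vale.Agent.P078.Tracial
open scoped ENNReal InnerProductSpace ComplexOrder

variable {X : Type} [TopologicalSpace X] [CompactSpace X] [T2Space X] [TotallyDisconnectedSpace X]
variable [MeasurableSpace X] [BorelSpace X]
variable {μ : Measure X} [IsFiniteMeasure μ]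

theorem coe_proj {s : Set (X × ℝ)} (hs : MeasurableSet s) (f : H μ) :
    ⇑(proj μ hs f) =ᵐ[nu μ] s.indicator f := by
  refine (coe_mulWord _ _ f).trans (Eventually.of_forall fun z => ?_)
  by_cases h : z ∈ s <;> simp [h]

theorem proj_mem {s : Set (X × ℝ)} (hs : MeasurableSet s) : proj μ hs ∈ alg μ := op_mem_alg _

theorem proj_mul {s t : Set (X × ℝ)} (hs : MeasurableSet s) (ht : MeasurableSet t) :
    proj μ hs * proj μ ht = proj μ (hs.inter ht) := by
  refine ContinuousLinearMap.ext fun f => Lp.ext ?_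
  show ⇑(proj μ hs (proj μ ht f)) =ᵐ[nu μ] _
  filter_upwards [coe_proj (μ := μ) hs (proj μ ht f), coe_proj (μ := μ) ht f,
    coe_proj (μ := μ) (hs.inter ht) f] with z h1 h2 h3
  rw [h1, h3]
  by_cases ha : z ∈ s <;> by_cases hb : z ∈ t <;> simp [ha, hb, h2]

theorem proj_congr {s t : Set (X × ℝ)} (hs : MeasurableSet s) (ht : MeasurableSet t)
    (h : ∀ᵐ z ∂nu μ, z ∈ s ↔ z ∈ t) : proj μ hs = proj μ ht := by
  refine ContinuousLinearMap.ext fun f => Lp.ext ?_
  filter_upwards [coe_proj (μ := μ) hs f, coe_proj (μ := μ) ht f, h] with z h1 h2 h3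
  rw [h1, h2]
  by_cases ha : z ∈ t <;> simp [ha, h3]

theorem proj_one_sub {s : Set (X × ℝ)} (hs : MeasurableSet s) :
    1 - proj μ hs = proj μ hs.compl := by
  refine ContinuousLinearMap.ext fun f => Lp.ext ?_
  rw [sub_apply, one_apply_eq_self]
  filter_upwards [coe_proj (μ := μ) hs f, coe_proj (μ := μ) hs.compl f,
    Lp.coeFn_sub f (proj μ hs f)] with z h1 h2 h3
  rw [h3, Pi.sub_apply, h1, h2]
  by_cases ha : z ∈ s <;> simp [ha]

theorem proj_empty {s : Set (X × ℝ)} (hs : MeasurableSet s) (h : s = ∅) : proj μ hs = 0 := by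
  refine ContinuousLinearMap.ext fun f => Lp.ext ?_
  refine (coe_proj hs f).trans ?_
  filter_upwards [Lp.coeFn_zero ℂ 2 (nu μ)] with z hz
  rw [zero_apply, hz, h]
  simp

theorem proj_star {s : Set (X × ℝ)} (hs : MeasurableSet s) :
    star (proj μ hs) = proj μ hs := by
  show star (indWord μ hs).op = _
  rw [Word.star_op]
  refine ContinuousLinearMap.ext fun f => Lp.ext ?_
  refine ((indWord μ hs).adj.coe_op f).trans (EventuallyEq.trans ?_ (coe_proj hs f).symm)
  filter_upwards [th_idOn (μ := μ) (V := Set.univ) isClopen_univ] with z hid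
  have hd : z ∈ dz (indWord μ hs).adj.p := ⟨Set.mem_univ _, trivial⟩
  simp only [Word.fn, Set.indicator_of_mem hd]
  show ((s.indicator (fun _ => (1 : ℝ)) (th μ (PMap.idOn Set.univ isClopen_univ) z) : ℝ) : ℂ) *
    f (th μ (PMap.idOn Set.univ isClopen_univ) z) = _
  rw [hid (Set.mem_univ _)]
  by_cases ha : z ∈ s <;> simp [ha]

theorem proj_isStarProjection {s : Set (X × ℝ)} (hs : MeasurableSet s) :
    IsStarProjection (proj μ hs) := by
  refine ⟨?_, proj_star hs⟩
  show proj μ hs * proj μ hs = proj μ hs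
  rw [proj_mul]
  exact proj_congr _ _ (Eventually.of_forall fun z => by simp)

theorem coe_sum_op {ι : Type*} [Fintype ι] (w : ι → Word μ) (f : H μ) :
    ⇑((∑ k, (w k).op) f) =ᵐ[nu μ] fun z => ∑ k, (w k).fn f z := by
  rw [sum_apply]
  filter_upwards [Lp.coeFn_finsetSum Finset.univ fun k => (w k).op f,
    ae_all_iff.2 fun k => (w k).coe_op f] with z h1 h2
  rw [h1, Finset.sum_apply]
  exact Finset.sum_congr rfl fun k _ => h2 k

variable {r : ℕ} {d : LData X r}

/-- The active part of the lifted space. -/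
def aset (d : LData X r) (c : Fin r) : Set (X × ℝ) := {x | d.act c x = 1} ×ˢ Set.univ

/-- The active part below the level. -/
def lowSet (d : LData X r) (c : Fin r) (R : ℝ) : Set (X × ℝ) :=
  {x | d.act c x = 1} ×ˢ Set.Ioi R

/-- The part above the level, over the unassigned set. -/
def topSet (d : LData X r) (R : ℝ) : Set (X × ℝ) := {x | d.U x = 1} ×ˢ Set.Ioc 0 R

theorem aset_meas (d : LData X r) (c : Fin r) : MeasurableSet (aset d c) :=
  (measurableSet_eq_fun (d.act c).continuous.measurable measurable_const).prod MeasurableSet.univ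

theorem lowSet_meas (d : LData X r) (c : Fin r) (R : ℝ) : MeasurableSet (lowSet d c R) :=
  (measurableSet_eq_fun (d.act c).continuous.measurable measurable_const).prod measurableSet_Ioi

theorem topSet_meas (d : LData X r) (R : ℝ) : MeasurableSet (topSet d R) :=
  (measurableSet_eq_fun d.U.continuous.measurable measurable_const).prod measurableSet_Ioc

theorem xWord_act (hd : d.Ok) (c : Fin r) :
    (xWord μ (d.act c)).op = proj μ (aset_meas d c) := by
  refine ContinuousLinearMap.ext fun f => Lp.ext ?_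
  refine (coe_mulWord _ _ f).trans (EventuallyEq.trans ?_ (coe_proj _ f).symm)
  refine Eventually.of_forall fun z => ?_
  rcases hd.act_01 c z.1 with h | h <;> simp [aset, h]

theorem lintegral_rpow_neg_two {R : ℝ} (hR : 0 < R) :
    IntegrableOn (fun u : ℝ => (u⁻¹) ^ 2) (Set.Ioi R) ∧
      ∫ u in Set.Ioi R, (u⁻¹) ^ 2 = R⁻¹ := by
  have e : ∀ u ∈ Set.Ioi R, u ^ (-2 : ℝ) = (u⁻¹) ^ 2 := fun u hu => by
    rw [show (-2 : ℝ) = -((2 : ℕ) : ℝ) by norm_num, Real.rpow_neg (hR.trans hu).le,
      Real.rpow_natCast, inv_pow]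
  refine ⟨(integrableOn_Ioi_rpow_of_lt (by norm_num) hR).congr_fun e measurableSet_Ioi, ?_⟩
  rw [← setIntegral_congr_fun measurableSet_Ioi e, integral_Ioi_rpow_of_lt (by norm_num) hR,
    show (-2 : ℝ) + 1 = -1 by norm_num, Real.rpow_neg_one, neg_div_neg_eq, div_one]

/-- The weight on the low part, as a vector. -/
theorem exists_weight (c : Fin r) {R : ℝ} (hR : 0 < R) :
    ∃ v : H μ, ⇑v =ᵐ[nu μ] (lowSet d c R).indicator (fun z => (((z.2)⁻¹ : ℝ) : ℂ)) ∧
      ‖v‖ ^ 2 = (∫ x, {x | d.act c x = 1}.indicator 1 x ∂μ) * R⁻¹ := by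
  set A : Set X := {x | d.act c x = 1}
  have hA : MeasurableSet A := measurableSet_eq_fun (d.act c).continuous.measurable measurable_const
  set g : X × ℝ → ℂ := (lowSet d c R).indicator fun z => (((z.2)⁻¹ : ℝ) : ℂ) with hg
  have hgm : AEStronglyMeasurable g (nu μ) :=
    ((Complex.measurable_ofReal.comp measurable_snd.inv).indicator
      (lowSet_meas d c R)).aestronglyMeasurable
  obtain ⟨hI, hI2⟩ := lintegral_rpow_neg_two hR
  have e : (fun z => ‖g z‖ ^ 2) = fun z : X × ℝ =>
      A.indicator (1 : X → ℝ) z.1 * (Set.Ioi R).indicator (fun u : ℝ => (u⁻¹) ^ 2) z.2 := by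
    funext z
    by_cases h1 : z.1 ∈ A <;> by_cases h2 : z.2 ∈ Set.Ioi R
    · have hz : z ∈ lowSet d c R := ⟨h1, h2⟩
      simp [hg, Set.indicator_of_mem hz, h1, Set.indicator_of_mem h2]
    all_goals
      have hz : z ∉ lowSet d c R := fun h => by first | exact h1 h.1 | exact h2 h.2
      simp [hg, Set.indicator_of_notMem hz, h1, h2]
  have hvol : (volume.restrict (Set.Ioi (0 : ℝ))).restrict (Set.Ioi R) =
      volume.restrict (Set.Ioi R) := by
    rw [Measure.restrict_restrict measurableSet_Ioi,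
      Set.inter_eq_left.2 (Set.Ioi_subset_Ioi hR.le)]
  have hi : Integrable (fun z => ‖g z‖ ^ 2) (nu μ) := by
    rw [e]
    refine Integrable.mul_prod ((integrable_const 1).indicator hA) ?_
    rw [integrable_indicator_iff measurableSet_Ioi, IntegrableOn, hvol]
    exact hI
  have hm : MemLp g 2 (nu μ) := (memLp_two_iff_integrable_sq_norm hgm).2 hi
  refine ⟨hm.toLp g, MemLp.coeFn_toLp hm, ?_⟩
  have h1 : ‖hm.toLp g‖ ^ 2 = ∫ z, ‖g z‖ ^ 2 ∂nu μ := by
    rw [← inner_self_eq_norm_sq (𝕜 := ℂ) (hm.toLp g), L2.inner_def]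
    refine ((integral_re (L2.integrable_inner (𝕜 := ℂ) _ _)).symm).trans (integral_congr_ae ?_)
    filter_upwards [MemLp.coeFn_toLp hm] with z hz
    rw [hz]
    exact inner_self_eq_norm_sq (𝕜 := ℂ) (g z)
  rw [h1, e, nu, integral_prod_mul (A.indicator (1 : X → ℝ))
    ((Set.Ioi R).indicator fun u : ℝ => (u⁻¹) ^ 2), integral_indicator measurableSet_Ioi, hvol, hI2]

/-- The compressed part of one colour, extended by the bound off the low part. -/
noncomputable def extOp (μ : Measure X) [IsFiniteMeasure μ] (d : LData X r)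
    (hns : ∀ c k, ((d.F c).p k).NS μ) (c : Fin r) (R : ℝ) : H μ →L[ℂ] H μ :=
  proj μ (lowSet_meas d c R) *
      ((xWord μ (d.e c)).op - ∑ k, (gWord μ ((d.F c).g k) ((d.F c).p k) (hns c k)).op) *
      proj μ (lowSet_meas d c R)
    + (d.B : ℂ) • (1 - proj μ (lowSet_meas d c R))

theorem low_coercive [μ.Regular]
    (hd : d.Ok) (hnull : ∀ c k, ((d.F c).p k).NullPres μ)
    (hns : ∀ c k, ((d.F c).p k).NS μ) {τ0 : ℝ} (hτ0 : 0 < τ0)
    (hsuper : ∀ c (f : C(X, ℝ)), 0 ≤ f →
      (∫ x, d.act c x * (d.F c).K (d.act c * f) x ∂μ) + τ0 * ∫ x, d.act c x * f x ∂μ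
        ≤ ∫ x, d.e c x * (d.act c x * f x) ∂μ)
    (c : Fin r) {R : ℝ} (hR : 0 < R) :
    (τ0 : ℂ) • proj μ (lowSet_meas d c R) ≤
      proj μ (lowSet_meas d c R) *
        ((xWord μ (d.e c)).op - ∑ k, (gWord μ ((d.F c).g k) ((d.F c).p k) (hns c k)).op) *
        proj μ (lowSet_meas d c R) := by
  classical
  have hR0 := hR
  obtain ⟨inv, hinv, hp, hg⟩ := (hd.symm c).exists_inv
  set P := proj μ (lowSet_meas d c R) with hP
  set E0 := (xWord μ (d.e c)).op with hE0
  set K := ∑ k, (gWord μ ((d.F c).g k) ((d.F c).p k) (hns c k)).op with hK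
  have hB0 := hd.B_pos
  have hg0 : ∀ k x, 0 ≤ (d.F c).g k x := fun k x =>
    ContinuousMap.le_def.1 ((hd.symm c).g_nonneg k) x
  have he0 : ∀ x, 0 ≤ d.e c x := fun x => ContinuousMap.le_def.1 (hd.e_nonneg c) x
  set Ls := lowSet d c R with hLs
  -- the rate on the low part
  have hrate := ae_fst (super_ae hd hnull hsuper c)
  have hpos : ∀ᵐ z ∂nu μ, ∀ k, z.1 ∈ ((d.F c).p k).dom →
      0 < (((d.F c).p k).dens μ z.1).toReal :=
    ae_all_iff.2 fun k => ae_fst (dens_pos (hns c k))
  -- the translations compressed to the low part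
  set ωf : X × ℝ → ℝ := fun z => if 0 < z.2 then z.2⁻¹ else 1 with hω
  have hωm : Measurable ωf :=
    Measurable.ite (measurableSet_lt measurable_const measurable_snd) measurable_snd.inv
      measurable_const
  have hωp : ∀ z, 0 < ωf z := fun z => by
    simp only [hω]
    split_ifs with h
    · exact inv_pos.2 h
    · exact one_pos
  set i1 : X × ℝ → ℝ := Ls.indicator fun _ => 1 with hi1
  have hi1m : Measurable i1 := measurable_const.indicator (lowSet_meas d c R)
  have hi1b : ∀ z, |i1 z| ≤ 1 := fun z => by by_cases h : z ∈ Ls <;> simp [hi1, h]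
  set wl : Fin (d.F c).num → Word μ := fun k =>
    ⟨(d.F c).p k, hns c k, fun z => i1 z * (d.F c).g k z.1 * i1 (th μ ((d.F c).p k) z),
      (hi1m.mul ((((d.F c).g k).continuous.measurable).comp measurable_fst)).mul
        (hi1m.comp (th_meas _)), ‖(d.F c).g k‖, fun z => by
        rw [abs_mul, abs_mul]
        calc |i1 z| * |(d.F c).g k z.1| * |i1 (th μ ((d.F c).p k) z)|
            ≤ 1 * ‖(d.F c).g k‖ * 1 := by
              have h := ((d.F c).g k).norm_coe_le_norm z.1
              rw [Real.norm_eq_abs] at h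
              exact mul_le_mul (mul_le_mul (hi1b z) h (abs_nonneg _) zero_le_one) (hi1b _)
                (abs_nonneg _) (mul_nonneg zero_le_one (norm_nonneg _))
          _ = _ := by ring⟩ with hwl
  have hPK : P * K * P = ∑ k, (wl k).op := by
    refine ContinuousLinearMap.ext fun f => Lp.ext ?_
    show ⇑(P (K (P f))) =ᵐ[nu μ] _
    filter_upwards [coe_proj (μ := μ) (lowSet_meas d c R) (K (P f)),
      coe_sum_op (fun k => gWord μ ((d.F c).g k) ((d.F c).p k) (hns c k)) (P f),
      coe_sum_op wl f, ae_all_iff.2 fun k =>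
        (gWord μ ((d.F c).g k) ((d.F c).p k) (hns c k)).fn_congr
          (coe_proj (μ := μ) (lowSet_meas d c R) f)] with z h1 h2 h3 h4
    rw [h1, h3]
    by_cases hz : z ∈ Ls
    · rw [Set.indicator_of_mem hz, hK, h2]
      refine Finset.sum_congr rfl fun k _ => ?_
      rw [h4 k]
      by_cases hzd : z ∈ dz ((d.F c).p k)
      · have hzd1 : z ∈ dz (gWord μ ((d.F c).g k) ((d.F c).p k) (hns c k)).p := hzd
        have hzd2 : z ∈ dz (wl k).p := hzd
        simp only [Word.fn, Set.indicator_of_mem hzd1, Set.indicator_of_mem hzd2]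
        show (((d.F c).g k z.1 : ℝ) : ℂ) * (lowSet d c R).indicator f (th μ ((d.F c).p k) z) =
          (((i1 z * (d.F c).g k z.1 * i1 (th μ ((d.F c).p k) z)) : ℝ) : ℂ) *
            f (th μ ((d.F c).p k) z)
        by_cases hz2 : th μ ((d.F c).p k) z ∈ Ls <;> simp [hi1, hz, hz2, ← hLs]
      · have hzd1 : z ∉ dz (gWord μ ((d.F c).g k) ((d.F c).p k) (hns c k)).p := hzd
        have hzd2 : z ∉ dz (wl k).p := hzd
        simp only [Word.fn, Set.indicator_of_notMem hzd1, Set.indicator_of_notMem hzd2]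
    · rw [Set.indicator_of_notMem hz]
      refine (Finset.sum_eq_zero fun k _ => ?_).symm
      simp [Word.fn, hwl, hi1, hz, Set.indicator_apply]
  set βf : X × ℝ → ℝ := Ls.indicator fun z => d.e c z.1 - τ0 with hβ
  have hβm : Measurable βf :=
    (((d.e c).continuous.measurable.comp measurable_fst).sub_const τ0).indicator
      (lowSet_meas d c R)
  have hβb : ∀ z, |βf z| ≤ d.B + τ0 := fun z => by
    by_cases h : z ∈ Ls
    · simp only [hβ, Set.indicator_of_mem h]
      rw [abs_le]; constructor <;> linarith [he0 z.1, hd.e_le c z.1]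
    · simp only [hβ, Set.indicator_of_notMem h, abs_zero]; linarith
  have hsch := schur_test wl inv hinv (fun k => hp k)
    (fun k z => mul_nonneg (mul_nonneg (Set.indicator_nonneg (fun _ _ => zero_le_one) z)
      (hg0 k z.1)) (Set.indicator_nonneg (fun _ _ => zero_le_one) _))
    (fun k => by
      filter_upwards [th_symm (hns c k)] with z hs hz
      show i1 (th μ ((d.F c).p k) z) * (d.F c).g (inv k) (((d.F c).p k).τ z.1) *
        i1 (th μ ((d.F c).p (inv k)) (th μ ((d.F c).p k) z)) =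
        i1 z * (d.F c).g k z.1 * i1 (th μ ((d.F c).p k) z)
      rw [hp k, hs hz, show (d.F c).g (inv k) (((d.F c).p k).τ z.1) = (d.F c).g k z.1 by
        simp [hg k, PMap.T, PMap.symm, PMap.d_apply, ((d.F c).p k).map_dom _ hz.1,
          ((d.F c).p k).left_inv _ hz.1]]
      ring)
    hωm hωp hβm hβb (by
      filter_upwards [hrate, hpos] with z hz1 hz2
      by_cases hz : z ∈ Ls
      · have hza : d.act c z.1 = 1 := hz.1
        have hz0 : 0 < z.2 := hR0.trans hz.2
        have h1 := hz1 hza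
        simp only [hβ, Set.indicator_of_mem hz]
        refine le_trans (Finset.sum_le_sum fun k _ => ?_) (le_sub_iff_add_le.2 h1)
        by_cases hk : z.1 ∈ ((d.F c).p k).dom
        · have hzd : z ∈ dz (wl k).p := ⟨hk, trivial⟩
          rw [Set.indicator_of_mem hzd]
          set ρ := (((d.F c).p k).dens μ z.1).toReal with hρ
          have hρ0 : 0 < ρ := hz2 k hk
          have hy : ωf (th μ ((d.F c).p k) z) / ωf z = ρ := by
            have h2 : 0 < z.2 / ρ := div_pos hz0 hρ0
            simp only [hω, th, ← hρ, if_pos hz0, if_pos h2]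
            field_simp
          show i1 z * (d.F c).g k z.1 * i1 (th μ ((d.F c).p k) z) *
            (ωf (th μ ((d.F c).p k) z) / ωf z) ≤ _
          rw [hy, PMap.d_apply, if_pos hk, one_mul]
          refine mul_le_mul_of_nonneg_right ?_ hρ0.le
          simp only [hi1, Set.indicator_of_mem hz, one_mul]
          refine mul_le_mul_of_nonneg_left ?_ (hg0 k _)
          by_cases h2 : th μ ((d.F c).p k) z ∈ Ls
          · rw [Set.indicator_of_mem h2]; exact le_of_eq h2.1.symm
          · rw [Set.indicator_of_notMem h2]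
            rcases hd.act_01 c (((d.F c).p k).τ z.1) with h | h <;> simp [h]
        · have hzd : z ∉ dz (wl k).p := fun h => hk h.1
          rw [Set.indicator_of_notMem hzd]
          refine mul_nonneg (mul_nonneg (mul_nonneg ?_ (hg0 k _)) ?_) ENNReal.toReal_nonneg
          · simp [PMap.d_apply, hk]
          · rcases hd.act_01 c (((d.F c).p k).τ z.1) with h | h <;> simp [h]
      · simp only [hβ, Set.indicator_of_notMem hz]
        refine le_of_eq (Finset.sum_eq_zero fun k _ => ?_)
        simp [hwl, hi1, hz, Set.indicator_apply])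
  have hPE : P * E0 * P = (mulWord (μ := μ) hβm hβb).op + (τ0 : ℂ) • P := by
    refine ContinuousLinearMap.ext fun f => Lp.ext ?_
    rw [add_apply, smul_apply]
    show ⇑(P (E0 (P f))) =ᵐ[nu μ] _
    filter_upwards [coe_proj (μ := μ) (lowSet_meas d c R) (E0 (P f)),
      coe_mulWord (μ := μ) (φ := fun z : X × ℝ => d.e c z.1)
        ((d.e c).continuous.measurable.comp measurable_fst) (C := ‖d.e c‖)
        (fun z => (d.e c).norm_coe_le_norm z.1) (P f),
      coe_proj (μ := μ) (lowSet_meas d c R) f, coe_mulWord (μ := μ) hβm hβb f,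
      Lp.coeFn_add ((mulWord (μ := μ) hβm hβb).op f) ((τ0 : ℂ) • P f),
      Lp.coeFn_smul (τ0 : ℂ) (P f)] with z h1 h2 h3 h4 h5 h6
    rw [h1, h5, Pi.add_apply, h6, Pi.smul_apply, h4, smul_eq_mul]
    by_cases hz : z ∈ Ls
    · rw [Set.indicator_of_mem hz, show (E0 (P f) : H μ) z = _ from h2, h3,
        Set.indicator_of_mem hz, hβ, Set.indicator_of_mem hz]
      push_cast; ring
    · rw [Set.indicator_of_notMem hz, h3, Set.indicator_of_notMem hz, hβ,
        Set.indicator_of_notMem hz]
      simp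
  have e : P * (E0 - K) * P = P * E0 * P - P * K * P := by noncomm_ring
  rw [e, hPE, hPK, add_comm, add_sub_assoc]
  exact le_add_of_nonneg_right (sub_nonneg.2 hsch.1)

theorem one_sub_extOp_posPres (hd : d.Ok) (hns : ∀ c k, ((d.F c).p k).NS μ) (c : Fin r)
    {R m : ℝ} (hm0 : 0 < m) (hBm : d.B ≤ m) :
    PosPres (1 - ((m⁻¹ : ℝ) : ℂ) • extOp μ d hns c R) := by
  classical
  set P := proj μ (lowSet_meas d c R) with hP
  set E0 := (xWord μ (d.e c)).op with hE0
  set K := ∑ k, (gWord μ ((d.F c).g k) ((d.F c).p k) (hns c k)).op with hK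
  have hB0 := hd.B_pos
  have hg0 : ∀ k x, 0 ≤ (d.F c).g k x := fun k x =>
    ContinuousMap.le_def.1 ((hd.symm c).g_nonneg k) x
  have he0 : ∀ x, 0 ≤ d.e c x := fun x => ContinuousMap.le_def.1 (hd.e_nonneg c) x
  set Ls := lowSet d c R with hLs
  have hKpp : PosPres K := PosPres.sum _ fun k _ => Word.posPres _ fun z => hg0 k z.1
  have hproj : ∀ {s : Set (X × ℝ)} (hs : MeasurableSet s), PosPres (proj μ hs) := fun {s} hs =>
    Word.posPres _ fun z => Set.indicator_nonneg (fun _ _ => zero_le_one) z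
  set P' := 1 - P with hP'
  set C0 := P * (E0 - K) * P with hC0
  set D := extOp μ d hns c R with hD'
  have hD : D = C0 + (d.B : ℂ) • P' := rfl
  set E := 1 - ((m⁻¹ : ℝ) : ℂ) • D with hE
  set φ : X × ℝ → ℝ := fun z =>
    1 - m⁻¹ * (Ls.indicator (fun z => d.e c z.1) z + Lsᶜ.indicator (fun _ => d.B) z) with hφ
  have hφm : Measurable φ := measurable_const.sub
    ((((d.e c).continuous.measurable.comp measurable_fst).indicator (lowSet_meas d c R)).add
      (measurable_const.indicator (lowSet_meas d c R).compl) |>.const_mul _)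
  have hφ01 : ∀ z, 0 ≤ φ z ∧ φ z ≤ 1 := fun z => by
    have hle : ∀ x, 0 ≤ x → x ≤ d.B → 0 ≤ 1 - m⁻¹ * x ∧ 1 - m⁻¹ * x ≤ 1 := fun x h0 hx => by
      have h1 : m⁻¹ * x ≤ 1 := by
        rw [inv_mul_le_iff₀ hm0, mul_one]; linarith
      have h2 : 0 ≤ m⁻¹ * x := mul_nonneg (inv_nonneg.2 hm0.le) h0
      constructor <;> linarith
    by_cases h : z ∈ Ls
    · simp only [hφ, Set.indicator_of_mem h, Set.indicator_of_notMem (Set.notMem_compl_iff.2 h),
        add_zero]
      exact hle _ (he0 _) (hd.e_le c _)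
    · simp only [hφ, Set.indicator_of_notMem h, Set.indicator_of_mem (Set.mem_compl h), zero_add]
      exact hle _ hB0.le le_rfl
  have hEeq : E = (mulWord (μ := μ) hφm (C := 1)
      (fun z => abs_le.2 ⟨by linarith [(hφ01 z).1], (hφ01 z).2⟩)).op
      + ((m⁻¹ : ℝ) : ℂ) • (P * K * P) := by
    have e1 : E = (1 - ((m⁻¹ : ℝ) : ℂ) • (P * E0 * P + (d.B : ℂ) • P'))
        + ((m⁻¹ : ℝ) : ℂ) • (P * K * P) := by
      rw [hE, hD, hC0, mul_sub, sub_mul, smul_add, smul_sub, smul_add]
      abel
    rw [e1]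
    congr 1
    refine ContinuousLinearMap.ext fun f => Lp.ext ?_
    rw [sub_apply, one_apply_eq_self, smul_apply, add_apply, smul_apply]
    refine EventuallyEq.trans ?_ (coe_mulWord _ _ f).symm
    have hP'e : P' = proj μ (lowSet_meas d c R).compl := by rw [hP', hP, proj_one_sub]
    filter_upwards [Lp.coeFn_sub f (((m⁻¹ : ℝ) : ℂ) • ((P * E0 * P) f + (d.B : ℂ) • P' f)),
      Lp.coeFn_smul ((m⁻¹ : ℝ) : ℂ) ((P * E0 * P) f + (d.B : ℂ) • P' f),
      Lp.coeFn_add ((P * E0 * P) f) ((d.B : ℂ) • P' f), Lp.coeFn_smul (d.B : ℂ) (P' f),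
      coe_proj (μ := μ) (lowSet_meas d c R) (E0 (P f)),
      coe_mulWord (μ := μ) (φ := fun z : X × ℝ => d.e c z.1)
        ((d.e c).continuous.measurable.comp measurable_fst) (C := ‖d.e c‖)
        (fun z => (d.e c).norm_coe_le_norm z.1) (P f),
      coe_proj (μ := μ) (lowSet_meas d c R) f,
      coe_proj (μ := μ) (lowSet_meas d c R).compl f] with z h1 h2 h3 h4 h5 h6 h7 h8
    rw [h1, Pi.sub_apply, h2, Pi.smul_apply, h3, Pi.add_apply, h4, Pi.smul_apply,
      show ((P * E0 * P) f : H μ) z = _ from h5, hP'e, h8, smul_eq_mul, smul_eq_mul]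
    simp only [← hLs]
    by_cases hz : z ∈ Ls
    · simp only [Set.indicator_of_mem hz, hφ, Set.indicator_of_notMem (Set.notMem_compl_iff.2 hz)]
      rw [show (E0 (P f) : H μ) z = _ from h6, h7, Set.indicator_of_mem (s := lowSet d c R) hz]
      push_cast; ring
    · simp only [Set.indicator_of_notMem hz, hφ, Set.indicator_of_mem (Set.mem_compl hz)]
      push_cast; ring
  rw [hEeq]
  exact (Word.posPres _ fun z => (hφ01 z).1).add
    ((((hproj _).mul hKpp).mul (hproj _)).smul (inv_nonneg.2 hm0.le))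

theorem exists_green [μ.Regular]
    (hd : d.Ok) (hnull : ∀ c k, ((d.F c).p k).NullPres μ)
    (hns : ∀ c k, ((d.F c).p k).NS μ) {τ0 : ℝ} (hτ0 : 0 < τ0)
    (hsuper : ∀ c (f : C(X, ℝ)), 0 ≤ f →
      (∫ x, d.act c x * (d.F c).K (d.act c * f) x ∂μ) + τ0 * ∫ x, d.act c x * f x ∂μ
        ≤ ∫ x, d.e c x * (d.act c x * f x) ∂μ)
    (c : Fin r) {R : ℝ} (hR : 0 < R) :
    ∃ G : H μ →L[ℂ] H μ, star G = G ∧ G * extOp μ d hns c R = 1 ∧
      G * proj μ (lowSet_meas d c R) = proj μ (lowSet_meas d c R) * G ∧ PosPres G := by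
  classical
  have hC0ge := low_coercive hd hnull hns hτ0 hsuper c hR
  set P := proj μ (lowSet_meas d c R) with hP
  set E0 := (xWord μ (d.e c)).op with hE0
  set K := ∑ k, (gWord μ ((d.F c).g k) ((d.F c).p k) (hns c k)).op with hK
  have hB0 := hd.B_pos
  have hg0 : ∀ k x, 0 ≤ (d.F c).g k x := fun k x =>
    ContinuousMap.le_def.1 ((hd.symm c).g_nonneg k) x
  have he0 : ∀ x, 0 ≤ d.e c x := fun x => ContinuousMap.le_def.1 (hd.e_nonneg c) x
  set Ls := lowSet d c R with hLs
  have hPP : P * P = P := (proj_isStarProjection _).isIdempotentElem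
  set P' := 1 - P with hP'
  have hPsa : star P = P := proj_star _
  have hP'sa : star P' = P' := by rw [hP', star_sub, star_one, hPsa]
  have hP0 : 0 ≤ P := (proj_isStarProjection _).nonneg
  have hP'0 : 0 ≤ P' := (proj_isStarProjection (lowSet_meas d c R)).one_sub.nonneg
  have hPP' : P * P' = 0 := by rw [hP', mul_sub, mul_one, hPP, sub_self]
  have hP'P : P' * P = 0 := by rw [hP', sub_mul, one_mul, hPP, sub_self]
  set C0 := P * (E0 - K) * P with hC0
  set D := extOp μ d hns c R with hD'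
  have hD : D = C0 + (d.B : ℂ) • P' := rfl
  set t1 := min τ0 d.B with ht1
  have ht10 : 0 < t1 := lt_min hτ0 hB0
  have hDge : (t1 : ℂ) • (1 : H μ →L[ℂ] H μ) ≤ D := by
    refine le_trans (le_of_eq_of_le ?_ (add_le_add
      (Schur.smul_mono_left hP0 (min_le_left τ0 d.B))
      (Schur.smul_mono_left hP'0 (min_le_right τ0 d.B)))) (add_le_add hC0ge le_rfl)
    rw [← smul_add, hP', add_sub_cancel, ht1]
  have hDpos : 0 ≤ D := (Schur.isUnit_of_ge' ht10 hDge).nonneg
  have hDsa : star D = D := (IsSelfAdjoint.of_nonneg hDpos).star_eq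
  set m := ‖D‖ + d.B + 1 with hm
  have hm0 : 0 < m := by linarith [norm_nonneg D]
  have hmc : (m : ℂ) ≠ 0 := Complex.ofReal_ne_zero.2 hm0.ne'
  set E := 1 - ((m⁻¹ : ℝ) : ℂ) • D with hE
  have hE0 : 0 ≤ E := by
    rw [hE, sub_nonneg]
    refine (Schur.smul_mono (inv_nonneg.2 hm0.le) (Schur.le_smul_norm
      (IsSelfAdjoint.of_nonneg hDpos) (show ‖D‖ ≤ m by linarith))).trans_eq ?_
    rw [smul_smul, ← Complex.ofReal_mul, inv_mul_cancel₀ hm0.ne', Complex.ofReal_one, one_smul]
  have hEn : ‖E‖ < 1 := by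
    have ht1m : t1 ≤ m := (min_le_right τ0 d.B).trans (by linarith [norm_nonneg D])
    have h1 : E ≤ ((1 - t1 / m : ℝ) : ℂ) • (1 : H μ →L[ℂ] H μ) := by
      rw [hE]
      refine (sub_le_sub_left (Schur.smul_mono (inv_nonneg.2 hm0.le) hDge) 1).trans_eq ?_
      rw [Complex.ofReal_sub, Complex.ofReal_one, sub_smul, one_smul, smul_smul,
        ← Complex.ofReal_mul, inv_mul_eq_div]
    refine (Schur.norm_le_smul_one (sub_nonneg.2 ((div_le_one hm0).2 ht1m)) hE0 h1).trans_lt ?_
    linarith [div_pos ht10 hm0]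
  set G := ((m⁻¹ : ℝ) : ℂ) • ∑' i : ℕ, E ^ i with hG
  have hsum : Summable fun i : ℕ => E ^ i := summable_geometric_of_norm_lt_one hEn
  have hDE : (1 - E) = ((m⁻¹ : ℝ) : ℂ) • D := by rw [hE, sub_sub_cancel]
  have hGD : G * D = 1 := by
    have h1 := geom_series_mul_neg E hEn
    rw [hDE, mul_smul_comm, ← smul_mul_assoc] at h1
    exact h1
  have hDG : D * G = 1 := by
    have h1 := mul_neg_geom_series E hEn
    rw [hDE, smul_mul_assoc, ← mul_smul_comm] at h1
    exact h1
  have hGsa : star G = G := by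
    calc star G = star G * (D * G) := by rw [hDG, mul_one]
      _ = star (D * G) * G := by rw [star_mul, hDsa, mul_assoc]
      _ = G := by rw [hDG, star_one, one_mul]
  have hDP : D * P = C0 := by
    rw [hD, add_mul, smul_mul_assoc, hP'P, smul_zero, add_zero, hC0, mul_assoc, hPP]
  have hPD : P * D = C0 := by
    rw [hD, mul_add, mul_smul_comm, hPP', smul_zero, add_zero, hC0, ← mul_assoc, ← mul_assoc, hPP]
  have hGP : G * P = P * G := by
    calc G * P = G * P * (D * G) := by rw [hDG, mul_one]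
      _ = G * (P * D) * G := by noncomm_ring
      _ = G * (D * P) * G := by rw [hPD, hDP]
      _ = P * G := by rw [← mul_assoc G D P, hGD, one_mul]
  have hEpp : PosPres E := one_sub_extOp_posPres hd hns c hm0 (by linarith [norm_nonneg D])
  have hGpp : PosPres G := by
    have h1 : PosPres (∑' i : ℕ, E ^ i) :=
      PosPres.tendsto (fun n => PosPres.sum (Finset.range n) fun i _ => hEpp.pow i)
        hsum.hasSum.tendsto_sum_nat
    exact h1.smul (inv_nonneg.2 hm0.le)
  exact ⟨G, hGsa, hGD, hGP, hGpp⟩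

theorem max_principle [μ.Regular]
    (hd : d.Ok) (hnull : ∀ c k, ((d.F c).p k).NullPres μ)
    (hns : ∀ c k, ((d.F c).p k).NS μ) {τ0 : ℝ} (hτ0 : 0 < τ0)
    (hsuper : ∀ c (f : C(X, ℝ)), 0 ≤ f →
      (∫ x, d.act c x * (d.F c).K (d.act c * f) x ∂μ) + τ0 * ∫ x, d.act c x * f x ∂μ
        ≤ ∫ x, d.e c x * (d.act c x * f x) ∂μ)
    (c : Fin r) {R : ℝ} (hR : 1 ≤ R) {v : H μ}
    (hv : ⇑v =ᵐ[nu μ] (lowSet d c R).indicator (fun z => (((z.2)⁻¹ : ℝ) : ℂ))) :
    PosFun (extOp μ d hns c R v -
      (proj μ (lowSet_meas d c R) * (∑ k, (gWord μ ((d.F c).g k) ((d.F c).p k) (hns c k)).op) *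
        proj μ (aset_meas d c) * proj μ (Win.one μ).meas) (Win.one μ).vec) := by
  classical
  have hR0 : 0 < R := one_pos.trans_le hR
  set a := proj μ (aset_meas d c) with ha
  set P := proj μ (lowSet_meas d c R) with hP
  set S0 := proj μ (Win.one μ).meas with hS0
  set E0 := (xWord μ (d.e c)).op with hE0
  set K := ∑ k, (gWord μ ((d.F c).g k) ((d.F c).p k) (hns c k)).op with hK
  set o := (Win.one μ).vec with ho
  have hg0 : ∀ k x, 0 ≤ (d.F c).g k x := fun k x =>
    ContinuousMap.le_def.1 ((hd.symm c).g_nonneg k) x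
  set Ls := lowSet d c R with hLs
  -- the rate on the low part
  have hrate := ae_fst (super_ae hd hnull hsuper c)
  have hpos : ∀ᵐ z ∂nu μ, ∀ k, z.1 ∈ ((d.F c).p k).dom →
      0 < (((d.F c).p k).dens μ z.1).toReal :=
    ae_all_iff.2 fun k => ae_fst (dens_pos (hns c k))
  have hPP : P * P = P := (proj_isStarProjection _).isIdempotentElem
  set C0 := P * (E0 - K) * P with hC0
  set D := extOp μ d hns c R with hD
  have hDP : D * P = C0 := by
    show (C0 + (d.B : ℂ) • (1 - P)) * P = C0
    rw [add_mul, smul_mul_assoc, sub_mul, one_mul, hPP, sub_self, smul_zero, add_zero, hC0,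
      mul_assoc, hPP]
  have hPv : P v = v := by
    refine Lp.ext ?_
    filter_upwards [coe_proj (μ := μ) (lowSet_meas d c R) v, hv] with z h1 h2
    rw [h1]
    by_cases hz : z ∈ lowSet d c R
    · rw [Set.indicator_of_mem hz]
    · rw [Set.indicator_of_notMem hz, h2, Set.indicator_of_notMem hz]
  have e : D v - (P * K * a * S0) o = P ((E0 v - K v) - K (a (S0 o))) := by
    have e1 : D v = C0 v := by
      rw [← hDP]
      show D v = D (P v)
      rw [hPv]
    have e2 : C0 v = P ((E0 - K) (P v)) := by rw [hC0]; rfl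
    rw [e1, e2, hPv, sub_apply, map_sub P (E0 v - K v) (K (a (S0 o)))]
    rfl
  rw [e]
  filter_upwards [coe_proj (μ := μ) (lowSet_meas d c R) ((E0 v - K v) - K (a (S0 o))),
    Lp.coeFn_sub (E0 v - K v) (K (a (S0 o))), Lp.coeFn_sub (E0 v) (K v),
    coe_mulWord (μ := μ) (φ := fun z : X × ℝ => d.e c z.1)
      ((d.e c).continuous.measurable.comp measurable_fst) (C := ‖d.e c‖)
      (fun z => (d.e c).norm_coe_le_norm z.1) v,
    coe_sum_op (fun k => gWord μ ((d.F c).g k) ((d.F c).p k) (hns c k)) v,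
    coe_sum_op (fun k => gWord μ ((d.F c).g k) ((d.F c).p k) (hns c k)) (a (S0 o)),
    ae_all_iff.2 fun k => (gWord μ ((d.F c).g k) ((d.F c).p k) (hns c k)).fn_congr hv,
    ae_all_iff.2 fun k => (gWord μ ((d.F c).g k) ((d.F c).p k) (hns c k)).fn_congr
      (show ⇑(a (S0 o)) =ᵐ[nu μ] fun y => (((aset d c).indicator
        ((Win.one μ).s.indicator fun _ => (1 : ℝ)) y : ℝ) : ℂ) by
        filter_upwards [coe_proj (μ := μ) (aset_meas d c) (S0 o),
          coe_proj (μ := μ) (Win.one μ).meas o,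
          indicatorConstLp_coeFn (hs := (Win.one μ).meas) (hμs := (Win.one μ).fin)
            (c := (1 : ℂ)) (p := 2)] with y h1 h2 h3
        rw [h1, Set.indicator_apply, h2, Set.indicator_apply, show o y = _ from h3]
        by_cases ha' : y ∈ aset d c <;> by_cases hs' : y ∈ (Win.one μ).s <;>
          simp [ha', hs']),
    hv, hrate, hpos] with z h1 h2 h3 h4 h5 h6 h7 h8 h9 hz1 hz2
  rw [h1]
  by_cases hz : z ∈ Ls
  · have hza : d.act c z.1 = 1 := hz.1
    have hz0 : 0 < z.2 := hR0.trans hz.2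
    rw [Set.indicator_of_mem hz, h2, Pi.sub_apply, h3, Pi.sub_apply,
      show (E0 v : H μ) z = _ from h4, hK, h5, h6, h9, Set.indicator_of_mem hz,
      sub_sub, ← Finset.sum_add_distrib]
    set ρ : Fin (d.F c).num → ℝ := fun k => (((d.F c).p k).dens μ z.1).toReal with hρ
    set φ : Fin (d.F c).num → ℝ := fun k => (dz ((d.F c).p k)).indicator (fun z =>
      (d.F c).g k z.1 * ((lowSet d c R).indicator (fun y => (y.2)⁻¹) (th μ ((d.F c).p k) z) +
        (aset d c).indicator ((Win.one μ).s.indicator fun _ => (1 : ℝ))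
          (th μ ((d.F c).p k) z))) z with hφ
    have e : ∀ k, (gWord μ ((d.F c).g k) ((d.F c).p k) (hns c k)).fn v z +
        (gWord μ ((d.F c).g k) ((d.F c).p k) (hns c k)).fn (a (S0 o)) z = (φ k : ℂ) := fun k => by
      rw [h7 k, h8 k]
      by_cases hzd : z ∈ dz ((d.F c).p k)
      · have hzd' : z ∈ dz (gWord μ ((d.F c).g k) ((d.F c).p k) (hns c k)).p := hzd
        simp only [Word.fn, hφ, Set.indicator_of_mem hzd, Set.indicator_of_mem hzd']
        show (((d.F c).g k z.1 : ℝ) : ℂ) *
            (lowSet d c R).indicator (fun y => (((y.2)⁻¹ : ℝ) : ℂ)) (th μ ((d.F c).p k) z) +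
          (((d.F c).g k z.1 : ℝ) : ℂ) * (((aset d c).indicator
            ((Win.one μ).s.indicator fun _ => (1 : ℝ)) (th μ ((d.F c).p k) z) : ℝ) : ℂ) = _
        by_cases hy : th μ ((d.F c).p k) z ∈ lowSet d c R
        · rw [Set.indicator_of_mem hy, Set.indicator_of_mem hy]
          push_cast; ring
        · rw [Set.indicator_of_notMem hy, Set.indicator_of_notMem hy]
          push_cast; ring
      · have hzd' : z ∉ dz (gWord μ ((d.F c).g k) ((d.F c).p k) (hns c k)).p := hzd
        simp [Word.fn, hφ, hzd, hzd']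
    rw [Finset.sum_congr rfl fun k _ => e k, ← Complex.ofReal_sum, ← Complex.ofReal_mul,
      ← Complex.ofReal_sub, Complex.zero_le_real, sub_nonneg]
    refine (Finset.sum_le_sum (g := fun k => ((((d.F c).p k).d z.1 * (d.F c).g k z.1 *
      d.act c (((d.F c).p k).τ z.1)) * ρ k) * z.2⁻¹) fun k _ => ?_).trans (by
        rw [← Finset.sum_mul]
        exact mul_le_mul_of_nonneg_right
          (le_trans (le_add_of_nonneg_right hτ0.le) (hz1 hza)) (inv_nonneg.2 hz0.le))
    by_cases hk : z.1 ∈ ((d.F c).p k).dom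
    · have hzd : z ∈ dz ((d.F c).p k) := ⟨hk, trivial⟩
      simp only [hφ, Set.indicator_of_mem hzd, PMap.d_apply, if_pos hk, one_mul]
      rw [mul_assoc, mul_assoc]
      refine mul_le_mul_of_nonneg_left ?_ (hg0 k _)
      have hρ0 : 0 < ρ k := hz2 k hk
      set y := th μ ((d.F c).p k) z with hy
      have hy2 : y.2⁻¹ = ρ k * z.2⁻¹ := by
        show (z.2 / ρ k)⁻¹ = _
        rw [inv_div, div_eq_mul_inv]
      have hy1 : y.1 = ((d.F c).p k).τ z.1 := rfl
      by_cases hya : y ∈ aset d c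
      · have hya1 : d.act c (((d.F c).p k).τ z.1) = 1 := hya.1
        rw [hya1, one_mul, ← hy2, Set.indicator_of_mem hya]
        by_cases hs' : y ∈ (Win.one μ).s
        · have hn : y ∉ lowSet d c R := fun h => by
            have h1 : y.2 ≤ 1 := hs'.2.2
            have h2 : R < y.2 := h.2
            linarith
          rw [Set.indicator_of_notMem hn, Set.indicator_of_mem hs', zero_add]
          exact (one_le_inv₀ hs'.2.1).2 hs'.2.2
        · rw [Set.indicator_of_notMem hs', add_zero]
          exact Set.indicator_le_self' (fun _ _ => inv_nonneg.2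
            (div_nonneg hz0.le hρ0.le)) y
      · have hn : y ∉ lowSet d c R := fun h => hya ⟨h.1, trivial⟩
        rw [Set.indicator_of_notMem hn, Set.indicator_of_notMem hya, add_zero]
        refine mul_nonneg ?_ (mul_nonneg hρ0.le (inv_nonneg.2 hz0.le))
        rcases hd.act_01 c (((d.F c).p k).τ z.1) with h | h <;> simp [h]
    · have hzd : z ∉ dz ((d.F c).p k) := fun h => hk h.1
      simp [hφ, hzd, PMap.d_apply, hk]
  · rw [Set.indicator_of_notMem hz]

/-- The diagonal of the low part is at most the mass of the active set over the level. -/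
theorem low_bound [μ.Regular] (hd : d.Ok) (hnull : ∀ c k, ((d.F c).p k).NullPres μ)
    (hns : ∀ c k, ((d.F c).p k).NS μ) {τ0 : ℝ} (hτ0 : 0 < τ0)
    (hsuper : ∀ c (f : C(X, ℝ)), 0 ≤ f →
      (∫ x, d.act c x * (d.F c).K (d.act c * f) x ∂μ) + τ0 * ∫ x, d.act c x * f x ∂μ
        ≤ ∫ x, d.e c x * (d.act c x * f x) ∂μ)
    (c : Fin r) {R : ℝ} (hR : 1 ≤ R) {Q : H μ →L[ℂ] H μ} (hQ : 0 ≤ Q)
    (hTQ : proj μ (topSet_meas d R) * Q = 0)
    (hAQA : Aop μ d hns c * Q * Aop μ d hns c ≤ 1) (π : DiscreteQuotient X) :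
    (diag (Win.one μ) π (Aop μ d hns c * Q * Aop μ d hns c)).re ≤
      (∫ x, d.U x ∂μ) * R⁻¹ := by
  classical
  set A := Aop μ d hns c with hAdef
  set a := proj μ (aset_meas d c) with ha
  set P := proj μ (lowSet_meas d c R) with hP
  set T := proj μ (topSet_meas d R) with hT
  set S0 := proj μ (Win.one μ).meas with hS0
  set E0 := (xWord μ (d.e c)).op with hE0
  set K := ∑ k, (gWord μ ((d.F c).g k) ((d.F c).p k) (hns c k)).op with hK
  have hR0 : 0 < R := one_pos.trans_le hR
  have hB0 := hd.B_pos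
  have hg0 : ∀ k x, 0 ≤ (d.F c).g k x := fun k x =>
    ContinuousMap.le_def.1 ((hd.symm c).g_nonneg k) x
  have he0 : ∀ x, 0 ≤ d.e c x := fun x => ContinuousMap.le_def.1 (hd.e_nonneg c) x
  have hU : ∀ x, d.act c x = 1 → d.U x = 1 := fun x hx => by
    rcases hd.U_01 x with h | h
    · have := hd.act_le c x; linarith
    · exact h
  have hA : A = a * (E0 - K) * a := by rw [hAdef, Aop, xWord_act hd, ← ha, ← hE0, ← hK]
  have hPP : P * P = P := (proj_isStarProjection _).isIdempotentElem
  have hPa : P * a = P := by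
    rw [hP, ha, proj_mul]
    refine proj_congr _ _ (Eventually.of_forall fun z => ?_)
    simp +contextual [lowSet, aset]
  have haT : a * (1 - T) = P := by
    rw [hT, proj_one_sub, ha, proj_mul, hP]
    refine proj_congr _ _ ?_
    filter_upwards [ae_snd_pos (μ := μ)] with z hz
    simp only [aset, topSet, lowSet, Set.mem_inter_iff, Set.mem_prod, Set.mem_compl_iff,
      Set.mem_ofPred_eq, Set.mem_univ, and_true, Set.mem_Ioc, Set.mem_Ioi]
    exact ⟨fun ⟨h1, h2⟩ => ⟨h1, not_le.1 fun h => h2 ⟨hU _ h1, hz, h⟩⟩,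
      fun ⟨h1, h2⟩ => ⟨h1, fun h => absurd h.2.2 (not_le.2 h2)⟩⟩
  have hKsa : star K = K := (kop_bound hd hns c).1
  have hE0sa : star E0 = E0 := by
    rw [hE0, Word.star_op]
    refine ContinuousLinearMap.ext fun f => Lp.ext ?_
    refine ((xWord μ (d.e c)).adj.coe_op f).trans (EventuallyEq.trans ?_ (coe_mulWord _ _ f).symm)
    filter_upwards [th_idOn (μ := μ) (V := Set.univ) isClopen_univ] with z hid
    have hz : z ∈ dz (xWord μ (d.e c)).adj.p := ⟨Set.mem_univ _, trivial⟩
    simp only [Word.fn, Set.indicator_of_mem hz]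
    show ((d.e c (th μ (PMap.idOn Set.univ isClopen_univ) z).1 : ℝ) : ℂ) *
      f (th μ (PMap.idOn Set.univ isClopen_univ) z) = _
    rw [hid (Set.mem_univ _)]
  have hPsa : star P = P := proj_star _
  set C0 := P * (E0 - K) * P with hC0
  set D := extOp μ d hns c R with hD
  have hDP : D * P = C0 := by
    show (C0 + (d.B : ℂ) • (1 - P)) * P = C0
    rw [add_mul, smul_mul_assoc, sub_mul, one_mul, hPP, sub_self, smul_zero, add_zero, hC0,
      mul_assoc, hPP]
  obtain ⟨G, hGsa, hGD, hGP, hGpp⟩ := exists_green hd hnull hns hτ0 hsuper c hR0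
  have hKpp : PosPres K := PosPres.sum _ fun k _ => Word.posPres _ fun z => hg0 k z.1
  have hproj : ∀ {s : Set (X × ℝ)} (hs : MeasurableSet s), PosPres (proj μ hs) := fun {s} hs =>
    Word.posPres _ fun z => Set.indicator_nonneg (fun _ _ => zero_le_one) z
  -- the first compression
  have hS0P : S0 * P = 0 := by
    rw [hS0, hP, proj_mul]
    refine proj_empty _ (Set.eq_empty_of_forall_notMem fun z hz => ?_)
    have h1 : z.2 ≤ 1 := hz.1.2.2
    have h2 : R < z.2 := hz.2.2
    linarith
  have haP : a * P = P := by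
    have := congrArg star hPa
    rwa [star_mul, hPsa, ha, proj_star] at this
  have hS0E : S0 * a * E0 * P = 0 := by
    refine ContinuousLinearMap.ext fun f => Lp.ext ?_
    show ⇑(S0 (a (E0 (P f)))) =ᵐ[nu μ] _
    filter_upwards [coe_proj (μ := μ) (Win.one μ).meas (a (E0 (P f))),
      coe_proj (μ := μ) (aset_meas d c) (E0 (P f)),
      coe_mulWord (μ := μ) (φ := fun z : X × ℝ => d.e c z.1)
        ((d.e c).continuous.measurable.comp measurable_fst) (C := ‖d.e c‖)
        (fun z => (d.e c).norm_coe_le_norm z.1) (P f),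
      coe_proj (μ := μ) (lowSet_meas d c R) f, Lp.coeFn_zero ℂ 2 (nu μ)] with z h1 h2 h3 h4 h0
    rw [h1, zero_apply, h0, Pi.zero_apply]
    by_cases hz : z ∈ (Win.one μ).s
    · rw [Set.indicator_of_mem hz, h2]
      by_cases hz2 : z ∈ aset d c
      · rw [Set.indicator_of_mem hz2, show (E0 (P f) : H μ) z = _ from h3, h4,
          Set.indicator_of_notMem fun h : z ∈ lowSet d c R => by
            have h1 : z.2 ≤ 1 := hz.2.2
            have h2 : R < z.2 := h.2
            linarith, mul_zero]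
      · rw [Set.indicator_of_notMem hz2]
    · rw [Set.indicator_of_notMem hz]
  set V := S0 * a * K * P with hV
  set W := V * G * P with hW
  have hAL : A * (1 - T) = a * (E0 - K) * P := by
    calc A * (1 - T) = a * (E0 - K) * (a * (1 - T)) := by rw [hA]; noncomm_ring
      _ = _ := by rw [haT]
  have h1 : S0 * A * (1 - T) = -V := by
    rw [mul_assoc, hAL, hV]
    calc S0 * (a * (E0 - K) * P) = S0 * a * E0 * P - S0 * a * K * P := by noncomm_ring
      _ = -(S0 * a * K * P) := by rw [hS0E, zero_sub]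
  have h2 : P * A * (1 - T) = C0 := by
    rw [mul_assoc, hAL, hC0, ← mul_assoc, ← mul_assoc, hPa]
  have hQT : (1 - T) * Q = Q := by rw [sub_mul, one_mul, hTQ, sub_zero]
  have hVG : V * G * C0 = V := by
    rw [← hDP, ← mul_assoc, mul_assoc V G D, hGD, mul_one, hV, mul_assoc _ P P, hPP]
  have h3 : S0 * A * Q = -(W * A * Q) := by
    calc S0 * A * Q = S0 * A * (1 - T) * Q := by rw [mul_assoc _ (1 - T) Q, hQT]
      _ = -V * Q := by rw [h1]
      _ = -(V * G * (P * A * (1 - T)) * Q) := by rw [h2, hVG, neg_mul]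
      _ = -(W * A * ((1 - T) * Q)) := by rw [hW]; noncomm_ring
      _ = -(W * A * Q) := by rw [hQT]
  have hQsa : star Q = Q := (IsSelfAdjoint.of_nonneg hQ).star_eq
  have hAsa : star A = A := by
    rw [hA, star_mul, star_mul, star_sub, hE0sa, hKsa, ha, proj_star, mul_assoc]
  have hS0sa : star S0 = S0 := proj_star _
  have h4 : S0 * (A * Q * A) * S0 = W * (A * Q * A) * star W := by
    have h5 : Q * A * S0 = -(Q * A * star W) := by
      have := congrArg star h3
      simpa [star_mul, hS0sa, hAsa, hQsa, mul_assoc] using this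
    calc S0 * (A * Q * A) * S0 = (S0 * A * Q) * A * S0 := by noncomm_ring
      _ = -(W * A) * (Q * A * S0) := by rw [h3]; noncomm_ring
      _ = W * (A * Q * A) * star W := by rw [h5]; noncomm_ring
  have h6 : S0 * (A * Q * A) * S0 ≤ W * star W := by
    rw [h4]
    have h7 := star_left_conjugate_le_conjugate hAQA (star W)
    rwa [star_star, mul_one] at h7
  -- the diagonal only sees the window
  have hdiag : diag (Win.one μ) π (A * Q * A) = diag (Win.one μ) π (S0 * (A * Q * A) * S0) := by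
    have hv : ∀ j, S0 (vec (Win.one μ) π j) = vec (Win.one μ) π j := fun j => by
      refine Lp.ext ?_
      filter_upwards [coe_proj (μ := μ) (Win.one μ).meas (vec (Win.one μ) π j),
        indicatorConstLp_coeFn (hs := cellSet_meas (Win.one μ) π j)
          (hμs := cellSet_fin (Win.one μ) π j) (c := (1 : ℂ)) (p := 2)] with z h1 h2
      rw [h1]
      by_cases hz : z ∈ (Win.one μ).s
      · rw [Set.indicator_of_mem hz]
      · rw [Set.indicator_of_notMem hz, vec, h2, Set.indicator_of_notMem fun h => hz h.1]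
    unfold diag
    refine Finset.sum_congr rfl fun j _ => ?_
    show _ = ⟪_, S0 ((A * Q * A) (S0 (vec (Win.one μ) π j)))⟫_ℂ
    rw [hv, ← ContinuousLinearMap.adjoint_inner_left S0, ← ContinuousLinearMap.star_eq_adjoint,
      hS0sa, hv]
  rw [hdiag]
  have hWsw : star W = P * G * (P * K * a * S0) := by
    rw [hW, hV]
    simp only [star_mul, hPsa, hGsa, hKsa, hS0sa, ha, proj_star, mul_assoc]
  have hWpp : PosPres W :=
    ((((hproj _).mul (hproj _)).mul hKpp).mul (hproj _)).mul hGpp |>.mul (hproj _)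
  have hWspp : PosPres (star W) := by
    rw [hWsw]
    exact ((hproj _).mul hGpp).mul ((((hproj _).mul hKpp).mul (hproj _)).mul (hproj _))
  refine ((diag_mono h6 _ π).trans (diag_le_inner (hWpp.mul hWspp) _ π)).trans ?_
  set o := (Win.one μ).vec with ho
  rw [show ⟪o, (W * star W) o⟫_ℂ = ⟪(star W) o, (star W) o⟫_ℂ by
    rw [ContinuousLinearMap.star_eq_adjoint]
    show ⟪o, W (ContinuousLinearMap.adjoint W o)⟫_ℂ = _
    rw [ContinuousLinearMap.adjoint_inner_left]]
  -- the maximum principle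
  obtain ⟨v, hv, hvn⟩ := exists_weight (μ := μ) (d := d) c hR0
  have hDv : PosFun (D v - (P * K * a * S0) o) := max_principle hd hnull hns hτ0 hsuper c hR hv
  have hGy : PosFun (v - (star W) o) := by
    have e : v - (star W) o = P (G (D v - (P * K * a * S0) o)) := by
      have hGDv : G (D v) = v := by
        show (G * D) v = v
        rw [hGD, one_apply_eq_self]
      rw [map_sub, map_sub, hGDv, hWsw]
      congr 1
      refine Lp.ext ?_
      filter_upwards [coe_proj (μ := μ) (lowSet_meas d c R) v, hv] with z h1 h2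
      rw [h1]
      by_cases hz : z ∈ lowSet d c R
      · rw [Set.indicator_of_mem hz]
      · rw [Set.indicator_of_notMem hz, h2, Set.indicator_of_notMem hz]
    rw [e]
    exact hproj _ _ (hGpp _ hDv)
  have hnorm : ‖(star W) o‖ ≤ ‖v‖ := by
    refine Lp.norm_le_norm_of_ae_le ?_
    filter_upwards [hWspp o (posFun_vec _), hGy, Lp.coeFn_sub v ((star W) o)] with z h1 h2 h3
    rw [h3, Pi.sub_apply] at h2
    obtain ⟨ha1, ha2⟩ := Complex.nonneg_iff.1 h1
    obtain ⟨hb1, hb2⟩ := Complex.nonneg_iff.1 h2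
    have hb3 : ((star W) o z).re ≤ (v z).re := by simpa [Complex.sub_re] using hb1
    rw [Complex.norm_def, Complex.norm_def]
    refine Real.sqrt_le_sqrt ?_
    simp only [Complex.normSq_apply, ← ha2]
    nlinarith [mul_self_le_mul_self ha1 hb3, mul_self_nonneg (v z).im]
  have e := inner_self_eq_norm_sq (𝕜 := ℂ) ((star W) o)
  simp only [RCLike.re_to_complex] at e
  rw [e]
  refine (pow_le_pow_left₀ (norm_nonneg _) hnorm 2).trans ?_
  rw [hvn]
  refine mul_le_mul_of_nonneg_right ?_ (inv_nonneg.2 hR0.le)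
  refine integral_mono ((integrable_const 1).indicator
      (measurableSet_eq_fun (d.act c).continuous.measurable measurable_const))
    (Integrable.of_bound d.U.continuous.aestronglyMeasurable ‖d.U‖
      (Eventually.of_forall d.U.norm_coe_le_norm)) fun x => ?_
  by_cases hx : d.act c x = 1
  · simp [hx, hU x hx]
  · simp only [Set.indicator_of_notMem (s := {x | d.act c x = 1}) hx]
    rcases hd.U_01 x with h | h <;> simp [h]

end Vale.Agent.P078.AllMasa.Lift
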