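import Vale.Agent.P078.AllMasa.Defect.Diag

/-! The lifted operators of the linearised budget. -/

namespace Vale.Agent.P078.AllMasa.Lift

set_option linter.unusedSectionVars false

open Filter Topology MeasureTheory
open Vale.Agent.P078.Tracial
open scoped ENNReal InnerProductSpace ComplexOrder

variable {X : Type} [TopologicalSpace X] [CompactSpace X] [T2Space X] [TotallyDisconnectedSpace X]
variable [MeasurableSpace X] [BorelSpace X]
variable (μ : Measure X) [IsFiniteMeasure μ]

/-- Multiplication by a function of the first coordinate. -/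
noncomputable def xWord (f : C(X, ℝ)) : Word μ :=
  mulWord (φ := fun z => f z.1) (f.continuous.measurable.comp measurable_fst) (C := ‖f‖)
    fun z => f.norm_coe_le_norm z.1

/-- One weighted translation. -/
noncomputable def gWord (g : C(X, ℝ)) (p : PMap X) (hp : p.NS μ) : Word μ :=
  ⟨p, hp, fun z => g z.1, g.continuous.measurable.comp measurable_fst, ‖g‖,
    fun z => g.norm_coe_le_norm z.1⟩

variable {r : ℕ} (d : LData X r) (hns : ∀ c k, ((d.F c).p k).NS μ)

/-- The lifted part of one colour. -/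
noncomputable def Aop (c : Fin r) : H μ →L[ℂ] H μ :=
  (xWord μ (d.act c)).op *
    ((xWord μ (d.e c)).op - ∑ k, (gWord μ ((d.F c).g k) ((d.F c).p k) (hns c k)).op) *
      (xWord μ (d.act c)).op

/-- The lifted square of the linearised budget. -/
noncomputable def Mop : H μ →L[ℂ] H μ :=
  ∑ c, Aop μ d hns c * Aop μ d hns c

/-- The polynomial with `1 - M q(M) = (1 - M / Tn) ^ (2 n)`. -/
noncomputable def qOp (n : ℕ) : H μ →L[ℂ] H μ :=
  ((d.Tn⁻¹ : ℝ) : ℂ) •
    ∑ i ∈ Finset.range (2 * n), (1 - ((d.Tn⁻¹ : ℝ) : ℂ) • Mop μ d hns) ^ i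

/-- The window of height one. -/
noncomputable def Win.one : Win μ where
  s := Set.univ ×ˢ Set.Ioc 0 1
  meas := MeasurableSet.univ.prod measurableSet_Ioc
  fin := by
    rw [nu, Measure.prod_prod]
    refine ENNReal.mul_ne_top (measure_ne_top μ _) ?_
    exact ((Measure.restrict_apply_le _ _).trans_lt (by simp)).ne

theorem Aop_mem (c : Fin r) : Aop μ d hns c ∈ alg μ :=
  mul_mem (mul_mem (op_mem_alg _) (sub_mem (op_mem_alg _) (sum_mem fun _ _ => op_mem_alg _)))
    (op_mem_alg _)

theorem Mop_mem : Mop μ d hns ∈ alg μ :=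
  sum_mem fun c _ => mul_mem (Aop_mem μ d hns c) (Aop_mem μ d hns c)

theorem qOp_mem (n : ℕ) : qOp μ d hns n ∈ alg μ :=
  SMulMemClass.smul_mem _ (sum_mem fun i _ =>
    pow_mem (sub_mem (one_mem _) (SMulMemClass.smul_mem _ (Mop_mem μ d hns))) i)

end Vale.Agent.P078.AllMasa.Lift
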