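import Vale.Agent.P078.AllMasa.Defect.Model
import Mathlib.Analysis.InnerProductSpace.StarOrder

/-! Order properties of lifted operators: the weighted Schur test and preservation of positive
functions. -/

namespace Vale.Agent.P078.AllMasa.Lift

set_option linter.unusedSectionVars false

open Filter Topology MeasureTheory ComplexConjugate
open Vale.Agent.P078.Tracial
open scoped ENNReal InnerProductSpace ComplexOrder

variable {X : Type} [TopologicalSpace X] [CompactSpace X] [T2Space X] [TotallyDisconnectedSpace X]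
variable [MeasurableSpace X] [BorelSpace X]
variable {μ : Measure X} [IsFiniteMeasure μ]

/-- A nonnegative function. -/
def PosFun (f : H μ) : Prop := ∀ᵐ z ∂nu μ, (0 : ℂ) ≤ f z

/-- An operator preserving nonnegative functions. -/
def PosPres (A : H μ →L[ℂ] H μ) : Prop := ∀ f, PosFun f → PosFun (A f)

theorem posFun_isClosed : IsClosed {f : H μ | PosFun f} := by
  refine IsSeqClosed.isClosed fun u f hu huf => ?_
  obtain ⟨ns, -, hns⟩ :=
    (tendstoInMeasure_of_tendsto_Lp huf).exists_seq_tendsto_ae
  have h : ∀ᵐ z ∂nu μ, ∀ n, (0 : ℂ) ≤ u n z := ae_all_iff.2 hu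
  filter_upwards [hns, h] with z hz hn
  exact ge_of_tendsto hz (Eventually.of_forall fun n => hn _)

theorem posFun_vec (S : Win μ) : PosFun S.vec := by
  unfold PosFun Win.vec
  filter_upwards [indicatorConstLp_coeFn (hs := S.meas) (hμs := S.fin) (c := (1 : ℂ)) (p := 2)]
    with z hz
  rw [hz]
  exact Set.indicator_nonneg (fun _ _ => zero_le_one) z

theorem posFun_cell (S : Win μ) (π : DiscreteQuotient X) (j : π) : PosFun (vec S π j) := by
  unfold PosFun vec
  filter_upwards [indicatorConstLp_coeFn (hs := cellSet_meas S π j) (hμs := cellSet_fin S π j)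
    (c := (1 : ℂ)) (p := 2)] with z hz
  rw [hz]
  exact Set.indicator_nonneg (fun _ _ => zero_le_one) z

theorem PosFun.inner_nonneg {f g : H μ} (hf : PosFun f) (hg : PosFun g) :
    0 ≤ (⟪f, g⟫_ℂ).re := by
  rw [L2.inner_def, show (∫ z, ⟪f z, g z⟫_ℂ ∂nu μ).re = ∫ z, (⟪f z, g z⟫_ℂ).re ∂nu μ from
    (integral_re (L2.integrable_inner (𝕜 := ℂ) f g)).symm]
  refine integral_nonneg_of_ae ?_
  filter_upwards [hf, hg] with z h1 h2
  rw [Complex.nonneg_iff] at h1 h2
  simp only [Pi.zero_apply, RCLike.inner_apply, Complex.mul_re, Complex.conj_re, Complex.conj_im]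
  rw [← h1.2]
  nlinarith [h1.1, h2.1]

theorem PosPres.mul {A B : H μ →L[ℂ] H μ} (hA : PosPres A) (hB : PosPres B) :
    PosPres (A * B) := fun f hf => hA _ (hB f hf)

theorem PosPres.one : PosPres (1 : H μ →L[ℂ] H μ) := fun _ hf => hf

theorem PosPres.zero : PosPres (0 : H μ →L[ℂ] H μ) := fun f _ => by
  show PosFun (0 : H μ)
  filter_upwards [Lp.coeFn_zero ℂ 2 (nu μ)] with z hz
  rw [hz]
  exact le_rfl

theorem PosPres.add {A B : H μ →L[ℂ] H μ} (hA : PosPres A) (hB : PosPres B) :
    PosPres (A + B) := fun f hf => by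
  show PosFun (A f + B f)
  filter_upwards [Lp.coeFn_add (A f) (B f), hA f hf, hB f hf] with z hz h1 h2
  rw [hz]
  exact add_nonneg h1 h2

theorem PosPres.sum {ι : Type*} (s : Finset ι) {A : ι → H μ →L[ℂ] H μ}
    (h : ∀ i ∈ s, PosPres (A i)) : PosPres (∑ i ∈ s, A i) := by
  classical
  induction s using Finset.induction_on with
  | empty => simpa using PosPres.zero
  | insert i s hi ih =>
    rw [Finset.sum_insert hi]
    exact (h i (Finset.mem_insert_self i s)).add (ih fun j hj => h j (Finset.mem_insert_of_mem hj))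

theorem PosPres.pow {A : H μ →L[ℂ] H μ} (hA : PosPres A) : ∀ n : ℕ, PosPres (A ^ n)
  | 0 => by simpa using PosPres.one
  | n + 1 => by rw [pow_succ]; exact (PosPres.pow hA n).mul hA

theorem PosPres.smul {A : H μ →L[ℂ] H μ} (hA : PosPres A) {c : ℝ} (hc : 0 ≤ c) :
    PosPres ((c : ℂ) • A) := fun f hf => by
  show PosFun ((c : ℂ) • A f)
  filter_upwards [Lp.coeFn_smul (c : ℂ) (A f), hA f hf] with z hz h1
  rw [hz, Pi.smul_apply, smul_eq_mul]
  exact mul_nonneg (Complex.zero_le_real.2 hc) h1

theorem PosPres.tendsto {ι : Type*} {l : Filter ι} [l.NeBot] {A : ι → H μ →L[ℂ] H μ}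
    {B : H μ →L[ℂ] H μ} (h : ∀ i, PosPres (A i)) (hl : Tendsto A l (𝓝 B)) : PosPres B :=
  fun f hf => posFun_isClosed.mem_of_tendsto
    (((ContinuousLinearMap.apply ℂ (H μ) f).continuous.tendsto B).comp hl)
    (Eventually.of_forall fun i => h i f hf)

theorem Word.posPres (w : Word μ) (h : ∀ z, 0 ≤ w.h z) : PosPres w.op := fun f hf => by
  have h1 := ae_imp_of_ae_restrict
    ((th_mp w.ns).quasiMeasurePreserving.ae (ae_restrict_of_ae hf))
  filter_upwards [w.coe_op f, h1] with z hz h1
  rw [hz]
  by_cases hd : z ∈ dz w.p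
  · simp only [Word.fn, Set.indicator_of_mem hd]
    exact mul_nonneg (Complex.zero_le_real.2 (h z)) (h1 hd)
  · simp [Word.fn, hd]

/-- An operator preserving positivity has diagonal below its full matrix coefficient. -/
theorem diag_le_inner {A : H μ →L[ℂ] H μ} (hA : PosPres A) (S : Win μ) (π : DiscreteQuotient X) :
    (diag S π A).re ≤ (⟪S.vec, A S.vec⟫_ℂ).re := by
  classical
  have hsum : ∑ j : π, vec S π j = S.vec := by
    refine Lp.ext ?_
    refine (Lp.coeFn_finsetSum _ _).trans ?_
    have h1 : ∀ᵐ z ∂nu μ, ∀ j : π, vec S π j z = (cellSet S π j).indicator (fun _ => (1 : ℂ)) z :=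
      ae_all_iff.2 fun j => indicatorConstLp_coeFn
    filter_upwards [h1, indicatorConstLp_coeFn (hs := S.meas) (hμs := S.fin) (c := (1 : ℂ))
      (p := 2)] with z h1 h2
    rw [Finset.sum_apply, Finset.sum_congr rfl fun j _ => h1 j, Finset.sum_eq_single (π.proj z.1)]
    · show _ = (Win.vec S : H μ) z
      rw [Win.vec, h2]
      by_cases hz : z ∈ S.s <;> simp [cellSet, hz]
    · intro j _ hj
      exact Set.indicator_of_notMem (fun h => hj (Set.mem_singleton_iff.1 h.2.1).symm) _
    · simp
  rw [← hsum, map_sum, sum_inner]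
  simp only [inner_sum, diag, Complex.re_sum]
  refine Finset.sum_le_sum fun i _ => ?_
  exact Finset.single_le_sum (f := fun j => (⟪vec S π i, A (vec S π j)⟫_ℂ).re)
    (fun j _ => (posFun_cell S π i).inner_nonneg (hA _ (posFun_cell S π j))) (Finset.mem_univ i)

theorem diag_mono {A B : H μ →L[ℂ] H μ} (h : A ≤ B) (S : Win μ) (π : DiscreteQuotient X) :
    (diag S π A).re ≤ (diag S π B).re := by
  simp only [diag, Complex.re_sum]
  refine Finset.sum_le_sum fun j _ => ?_
  have h1 := ((ContinuousLinearMap.le_def A B).1 h).re_inner_nonneg_right (vec S π j)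
  rw [sub_apply, inner_sub_right] at h1
  simp only [RCLike.re_to_complex, Complex.sub_re] at h1
  linarith

/-- The weighted Schur test for a symmetric family of positive words. -/
theorem schur_test {ι : Type} [Fintype ι] (w : ι → Word μ) (inv : ι → ι)
    (hinv : Function.Involutive inv) (hp : ∀ k, (w (inv k)).p = (w k).p.symm)
    (hh : ∀ k z, 0 ≤ (w k).h z)
    (hsym : ∀ k, ∀ᵐ z ∂nu μ, z ∈ dz (w k).p → (w (inv k)).h (th μ (w k).p z) = (w k).h z)
    {ω : X × ℝ → ℝ} (hωm : Measurable ω) (hω : ∀ z, 0 < ω z)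
    {β : X × ℝ → ℝ} (hβm : Measurable β) {Cβ : ℝ} (hβ : ∀ z, |β z| ≤ Cβ)
    (hle : ∀ᵐ z ∂nu μ,
      ∑ k, (dz (w k).p).indicator (fun z => (w k).h z * (ω (th μ (w k).p z) / ω z)) z ≤ β z) :
    ∑ k, (w k).op ≤ (mulWord (μ := μ) hβm hβ).op ∧
      -∑ k, (w k).op ≤ (mulWord (μ := μ) hβm hβ).op := by
  classical
  set B := (mulWord (μ := μ) hβm hβ).op with hB
  set K := ∑ k, (w k).op with hK
  have hKsa : IsSelfAdjoint K := by
    rw [IsSelfAdjoint, hK, star_sum]
    refine (Finset.sum_congr rfl fun k _ => ?_).trans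
      (Equiv.sum_comp hinv.toPerm fun k => (w k).op)
    rw [Word.star_op, Function.Involutive.coe_toPerm]
    refine ContinuousLinearMap.ext fun f => Lp.ext ?_
    refine ((w k).adj.coe_op f).trans (EventuallyEq.trans ?_ ((w (inv k)).coe_op f).symm)
    filter_upwards [hsym (inv k), th_symm (w k).ns.symm] with z hz hs
    rw [hinv k] at hz
    unfold Word.fn
    rw [hp k]
    by_cases hd : z ∈ dz (w k).p.symm
    · rw [Set.indicator_of_mem hd, Set.indicator_of_mem (s := dz (w k).adj.p) hd]
      have h1 : (w k).adj.h z = (w (inv k)).h z := by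
        have := hz (by rw [hp k]; exact hd)
        rw [hp k] at this
        exact this
      rw [h1]; rfl
    · rw [Set.indicator_of_notMem hd, Set.indicator_of_notMem (s := dz (w k).adj.p) hd]
  have hBsa : IsSelfAdjoint B := by
    rw [IsSelfAdjoint, hB, Word.star_op]
    refine ContinuousLinearMap.ext fun f => Lp.ext ?_
    refine ((mulWord (μ := μ) hβm hβ).adj.coe_op f).trans
      (EventuallyEq.trans ?_ (coe_mulWord hβm hβ f).symm)
    filter_upwards [th_idOn (μ := μ) (V := Set.univ) isClopen_univ] with z hid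
    have hd : z ∈ dz (mulWord (μ := μ) hβm hβ).adj.p := ⟨Set.mem_univ _, trivial⟩
    simp only [Word.fn, Set.indicator_of_mem hd]
    show ((β (th μ (PMap.idOn Set.univ isClopen_univ) z) : ℝ) : ℂ) *
      f (th μ (PMap.idOn Set.univ isClopen_univ) z) = _
    rw [hid (Set.mem_univ _)]
  -- the pointwise bounds
  have key : ∀ f : H μ, |(⟪f, K f⟫_ℂ).re| ≤ (⟪f, B f⟫_ℂ).re := by
    intro f
    set a : X × ℝ → ℝ := fun z => ‖f z‖ with ha
    set P : ι → X × ℝ → ℝ := fun k => (dz (w k).p).indicator
      fun z => (w k).h z * (ω (th μ (w k).p z) / ω z) * a z ^ 2 with hP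
    set Q : ι → X × ℝ → ℝ := fun k => (dz (w k).p).indicator
      fun z => P (inv k) (th μ (w k).p z) with hQ
    have hP0 : ∀ k z, 0 ≤ P k z := fun k z => Set.indicator_nonneg (fun z _ =>
      mul_nonneg (mul_nonneg (hh k z) (div_nonneg (hω _).le (hω _).le)) (sq_nonneg _)) z
    have hfa : AEStronglyMeasurable a (nu μ) := (Lp.aestronglyMeasurable f).norm
    have ha2 : Integrable (fun z => a z ^ 2) (nu μ) := by
      simpa using (Lp.memLp f).norm.integrable_sq
    have hβa : Integrable (fun z => β z * a z ^ 2) (nu μ) :=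
      ha2.bdd_mul hβm.aestronglyMeasurable (Eventually.of_forall hβ)
    have hsumP : ∀ᵐ z ∂nu μ, ∑ k, P k z ≤ β z * a z ^ 2 := by
      filter_upwards [hle] with z hz
      refine le_trans (le_of_eq ?_) (mul_le_mul_of_nonneg_right hz (sq_nonneg (a z)))
      rw [Finset.sum_mul]
      exact Finset.sum_congr rfl fun k _ => by simp [hP, Set.indicator_apply, ite_mul]
    have hPi : ∀ k, Integrable (P k) (nu μ) := fun k => by
      refine hβa.mono' ((AEStronglyMeasurable.indicator ?_ (dz_meas _))) ?_
      · exact (((w k).h_meas.mul ((hωm.comp (th_meas _)).div hωm)).aestronglyMeasurable).mul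
          (hfa.pow 2)
      · filter_upwards [hsumP] with z hz
        rw [Real.norm_of_nonneg (hP0 k z)]
        exact (Finset.single_le_sum (fun i _ => hP0 i z) (Finset.mem_univ k)).trans hz
    have hPzero : ∀ k z, z ∉ rz (w k).p → P (inv k) z = 0 := fun k z hz => by
      refine Set.indicator_of_notMem (fun h => hz ?_) _
      rw [hp k] at h
      exact h
    have hQi : ∀ k, Integrable (Q k) (nu μ) ∧ ∫ z, Q k z ∂nu μ = ∫ z, P (inv k) z ∂nu μ :=
      fun k => by
      have h1 : IntegrableOn (fun z => P (inv k) (th μ (w k).p z)) (dz (w k).p) (nu μ) :=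
        ((th_mp (w k).ns).integrable_comp (hPi (inv k)).restrict.aestronglyMeasurable).2
          (hPi (inv k)).restrict
      refine ⟨(integrable_indicator_iff (dz_meas _)).2 h1, ?_⟩
      rw [hQ, integral_indicator (dz_meas _),
        ← setIntegral_eq_integral_of_forall_compl_eq_zero (hPzero k), ← (th_mp (w k).ns).map_eq]
      refine (integral_map (th_meas _).aemeasurable ?_).symm
      rw [(th_mp (w k).ns).map_eq]
      exact (hPi (inv k)).restrict.aestronglyMeasurable
    set u : ι → X × ℝ → ℝ := fun k z => (⟪f z, (w k).op f z⟫_ℂ).re with hu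
    have hui : ∀ k, Integrable (u k) (nu μ) := fun k =>
      (L2.integrable_inner (𝕜 := ℂ) f ((w k).op f)).re
    have hub : ∀ k, ∀ᵐ z ∂nu μ, |u k z| ≤ (P k z + Q k z) / 2 := fun k => by
      filter_upwards [(w k).coe_op f, hsym k, th_symm (w k).ns] with z hz hs hts
      simp only [hu, hz]
      by_cases hd : z ∈ dz (w k).p
      · set y := th μ (w k).p z with hy
        have hdy : y ∈ dz (w (inv k)).p := by
          rw [hp k]; exact ⟨(w k).p.map_dom _ hd.1, trivial⟩
        have hPk : P k z = (w k).h z * (ω y / ω z) * a z ^ 2 := Set.indicator_of_mem hd _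
        have hQk : Q k z = (w k).h z * (ω z / ω y) * a y ^ 2 := by
          simp only [hQ, hP, Set.indicator_of_mem hd]
          rw [hp k, ← hy, Set.indicator_of_mem (hp k ▸ hdy : y ∈ dz (w k).p.symm), hts hd, hs hd]
        simp only [Word.fn, Set.indicator_of_mem hd, RCLike.inner_apply]
        rw [hPk, hQk]
        refine (Complex.abs_re_le_norm _).trans ?_
        rw [norm_mul, norm_mul, Complex.norm_real, Real.norm_of_nonneg (hh k z),
          RCLike.norm_conj]
        have e : ω y / ω z * (a z ^ 2) + ω z / ω y * a y ^ 2 - 2 * a y * a z =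
            (ω y * a z - ω z * a y) ^ 2 / (ω y * ω z) := by
          field_simp [(hω z).ne', (hω y).ne']
          ring
        have h3 : 0 ≤ ω y / ω z * (a z ^ 2) + ω z / ω y * a y ^ 2 - 2 * a y * a z :=
          e ▸ div_nonneg (sq_nonneg _) (mul_nonneg (hω y).le (hω z).le)
        have h4 := mul_nonneg (hh k z) h3
        show (w k).h z * a y * a z ≤ _
        linarith
      · simp [Word.fn, hd, hP, hQ]
    have e1 : (⟪f, K f⟫_ℂ).re = ∫ z, ∑ k, u k z ∂nu μ := by
      rw [hK, sum_apply, inner_sum, Complex.re_sum,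
        integral_finsetSum _ fun k _ => hui k]
      refine Finset.sum_congr rfl fun k _ => ?_
      rw [L2.inner_def]
      exact (integral_re (L2.integrable_inner (𝕜 := ℂ) f ((w k).op f))).symm
    have e2 : (⟪f, B f⟫_ℂ).re = ∫ z, β z * a z ^ 2 ∂nu μ := by
      rw [L2.inner_def]
      refine (integral_re (L2.integrable_inner (𝕜 := ℂ) f (B f))).symm.trans (integral_congr_ae ?_)
      filter_upwards [coe_mulWord (μ := μ) hβm hβ f] with z hz
      rw [hB, hz, RCLike.inner_apply, mul_assoc, Complex.mul_conj, Complex.normSq_eq_norm_sq]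
      simp [ha, ← Complex.ofReal_pow]
    rw [e1, e2]
    refine abs_integral_le_integral_abs.trans ?_
    calc ∫ z, |∑ k, u k z| ∂nu μ ≤ ∫ z, ∑ k, (P k z + Q k z) / 2 ∂nu μ := by
          refine integral_mono_ae (integrable_finsetSum _ fun k _ => hui k).abs
            (integrable_finsetSum _ fun k _ => ((hPi k).add (hQi k).1).div_const 2) ?_
          filter_upwards [ae_all_iff.2 hub] with z hz
          exact (Finset.abs_sum_le_sum_abs _ _).trans (Finset.sum_le_sum fun k _ => hz k)
      _ = ∑ k, ∫ z, P k z ∂nu μ := by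
          rw [integral_finsetSum (μ := nu μ) (f := fun k z => (P k z + Q k z) / 2) Finset.univ
            fun k _ => ((hPi k).add (hQi k).1).div_const 2]
          simp only [integral_div, integral_add (hPi _) (hQi _).1, (hQi _).2]
          rw [← Finset.sum_div, Finset.sum_add_distrib,
            show ∑ k, ∫ z, P (inv k) z ∂nu μ = ∑ k, ∫ z, P k z ∂nu μ from
              Equiv.sum_comp hinv.toPerm fun k => ∫ z, P k z ∂nu μ]
          ring
      _ ≤ _ := by
          rw [← integral_finsetSum _ fun k _ => hPi k]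
          exact integral_mono_ae (integrable_finsetSum _ fun k _ => hPi k) hβa hsumP
  refine ⟨?_, ?_⟩ <;> rw [ContinuousLinearMap.le_def, ContinuousLinearMap.isPositive_def']
  · refine ⟨hBsa.sub hKsa, fun f => ?_⟩
    have h1 := key f
    rw [ContinuousLinearMap.reApplyInnerSelf_apply, inner_re_symm (𝕜 := ℂ), sub_apply, inner_sub_right]
    simp only [RCLike.re_to_complex, Complex.sub_re]
    linarith [le_abs_self (⟪f, K f⟫_ℂ).re]
  · refine ⟨hBsa.sub hKsa.neg, fun f => ?_⟩
    have h1 := key f
    rw [ContinuousLinearMap.reApplyInnerSelf_apply, inner_re_symm (𝕜 := ℂ), sub_apply, inner_sub_right,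
      neg_apply, inner_neg_right]
    simp only [RCLike.re_to_complex, Complex.sub_re, Complex.neg_re]
    linarith [neg_abs_le (⟪f, K f⟫_ℂ).re]

end Vale.Agent.P078.AllMasa.Lift
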