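import Vale.Agent.P078.AllMasa.Ops
import Mathlib.Analysis.CStarAlgebra.ContinuousFunctionalCalculus.Range

/-! Splitting an inverse along a projection, inside a closed star subalgebra. -/

namespace Vale.Agent.P078.AllMasa.Schur

set_option linter.unusedSectionVars false

open ComplexOrder

variable {A : Type*} [CStarAlgebra A] [PartialOrder A] [StarOrderedRing A]

theorem isUnit_of_ge {N : A} {ε : ℝ} (hε : 0 < ε) (hN : ε • (1 : A) ≤ N) :
    IsStrictlyPositive N :=
  IsStrictlyPositive.of_le (IsStrictlyPositive.smul hε isStrictlyPositive_one) hN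

/-- The inverse square root of a strictly positive element. -/
theorem exists_invSqrt (s : StarSubalgebra ℂ A) [IsClosed (s : Set A)] {N : A}
    (hN : IsStrictlyPositive N) (hNs : N ∈ s) :
    ∃ R : A, IsSelfAdjoint R ∧ R ∈ s ∧ R * R = Ring.inverse N ∧ R * N * R = 1 ∧
      ∀ T, Commute T N → Commute T R := by
  have hsa : IsSelfAdjoint N := IsSelfAdjoint.of_nonneg hN.nonneg
  have hpos : ∀ x ∈ spectrum ℝ N, 0 < x := fun x hx => hN.spectrum_pos hx
  set R := cfc (fun x : ℝ => (√x)⁻¹) N with hR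
  have hc : ContinuousOn (fun x : ℝ => (√x)⁻¹) (spectrum ℝ N) :=
    ContinuousOn.inv₀ (by fun_prop) fun x hx => (Real.sqrt_pos.2 (hpos x hx)).ne'
  have hRN : R * N * R = 1 := by
    rw [show R * N * R = cfc (fun x : ℝ => (√x)⁻¹) N * cfc (fun x : ℝ => x) N *
      cfc (fun x : ℝ => (√x)⁻¹) N by rw [cfc_id' ℝ N, hR],
      ← cfc_mul _ _ N, ← cfc_mul _ _ N]
    rw [← cfc_one (R := ℝ) N]
    refine cfc_congr fun x hx => ?_
    have h0 := Real.sqrt_pos.2 (hpos x hx)
    have h1 := Real.mul_self_sqrt (hpos x hx).le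
    simp only [Pi.one_apply]
    field_simp
    linarith
  refine ⟨R, cfc_predicate _ N, cfc_mem _ hNs, ?_, hRN, fun T hT => ?_⟩
  · obtain ⟨u, hu⟩ := hN.isUnit
    have hinv : Ring.inverse N = cfc (fun x : ℝ => x⁻¹) N := by
      rw [← hu, Ring.inverse_unit, cfc_inv_id (R := ℝ) u (hu ▸ hsa)]
    rw [hinv, hR, ← cfc_mul _ _ N]
    refine cfc_congr fun x hx => ?_
    rw [← mul_inv, Real.mul_self_sqrt (hpos x hx).le]
  · exact (hT.symm.cfc_real _).symm

/-- The two parts of the inverse, below and on the projection. -/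
theorem exists_split (s : StarSubalgebra ℂ A) [IsClosed (s : Set A)] {M T : A} (hM : 0 ≤ M)
    (hMs : M ∈ s) (hT : IsStarProjection T) (hTs : T ∈ s) {ε : ℝ} (hε : 0 < ε) :
    ∃ Q Y : A, Q ∈ s ∧ Y ∈ s ∧ 0 ≤ Q ∧ T * Q = 0 ∧
      Ring.inverse (M + (ε : ℂ) • (1 : A)) = Q + Y * T * star Y ∧
        T * (star Y * M * Y) * T ≤ T := by
  simp only [Complex.coe_smul]
  have hR : ∀ c : ℝ, ∀ x : A, x ∈ s → c • x ∈ s := fun c x hx => by
    rw [← Complex.coe_smul]; exact SMulMemClass.smul_mem _ hx
  set N : A := M + ε • 1 with hNdef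
  have hNs : N ∈ s := add_mem hMs (hR ε 1 (one_mem _))
  have hNε : ε • (1 : A) ≤ N := le_add_of_nonneg_left hM
  have hNsa : star N = N := (IsSelfAdjoint.of_nonneg (isUnit_of_ge hε hNε).nonneg).star_eq
  have hTT : T * T = T := hT.isIdempotentElem
  have hTsa : star T = T := hT.isSelfAdjoint
  have hT0 : 0 ≤ T := hT.nonneg
  set L : A := 1 - T with hL
  have hLs : L ∈ s := sub_mem (one_mem _) hTs
  have hTL : T * L = 0 := by rw [hL, mul_sub, mul_one, hTT, sub_self]
  have hLT : L * T = 0 := by rw [hL, sub_mul, one_mul, hTT, sub_self]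
  have hLL : L * L = L := by rw [hL] at hTL ⊢; rw [sub_mul, one_mul, hTL, sub_zero]
  have hLsa : star L = L := by rw [hL, star_sub, star_one, hTsa]
  have hL0 : 0 ≤ L := by
    have := star_mul_self_nonneg L
    rwa [hLsa, hLL] at this
  have hLT1 : L + T = 1 := by rw [hL, sub_add_cancel]
  -- the two invertible extensions
  have hext : ∀ S : A, ∀ P Q : A, ε • P ≤ S → 0 ≤ P → 0 ≤ Q → P + Q = 1 →
      IsStrictlyPositive (S + Q) := fun S P Q h hP hQ hPQ => by
    refine isUnit_of_ge (lt_min hε one_pos) ((?_ : _ ≤ ε • P + Q).trans (add_le_add h le_rfl))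
    rw [← hPQ, smul_add]
    exact add_le_add (smul_le_smul_of_nonneg_right (min_le_left _ _) hP)
      ((smul_le_smul_of_nonneg_right (min_le_right _ _) hQ).trans_eq (one_smul _ _))
  set NL : A := L * N * L + T with hNL
  have hNLpos : IsStrictlyPositive NL := by
    refine hext _ L T ?_ hL0 hT0 hLT1
    have h1 := star_left_conjugate_le_conjugate hNε L
    rwa [hLsa, mul_smul_comm, mul_one, smul_mul_assoc, hLL] at h1
  obtain ⟨RL, hRLsa, hRLs, hRL, -, hRLc⟩ :=
    exists_invSqrt s hNLpos (add_mem (mul_mem (mul_mem hLs hNs) hLs) hTs)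
  have hNLL : NL * L = L * N * L := by
    rw [hNL, add_mul, hTL, add_zero, mul_assoc (L * N), hLL]
  have hLNL : L * NL = L * N * L := by
    rw [hNL, mul_add, hLT, add_zero, ← mul_assoc, ← mul_assoc, hLL]
  have hcL : Commute L RL := hRLc L (hLNL.trans hNLL.symm)
  set Q : A := L * (RL * RL) * L with hQ
  have hQs : Q ∈ s := mul_mem (mul_mem hLs (mul_mem hRLs hRLs)) hLs
  have hQ0 : 0 ≤ Q := by
    have h1 : 0 ≤ RL * RL := by
      have := star_mul_self_nonneg RL
      rwa [hRLsa.star_eq] at this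
    have := star_left_conjugate_le_conjugate h1 L
    rwa [hLsa, mul_zero, zero_mul] at this
  have hQsa : star Q = Q := (IsSelfAdjoint.of_nonneg hQ0).star_eq
  have hTQ : T * Q = 0 := by rw [hQ, ← mul_assoc, ← mul_assoc, hTL, zero_mul, zero_mul]
  have hQT : Q * T = 0 := by rw [hQ, mul_assoc, hLT, mul_zero]
  have hLNQ : L * N * Q = L := by
    have hinv : NL * (RL * RL) = 1 := by
      rw [hRL]; exact Ring.mul_inverse_cancel NL hNLpos.isUnit
    calc L * N * Q = (L * N * L) * (RL * RL) * L := by rw [hQ]; noncomm_ring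
      _ = L * (NL * (RL * RL)) * L := by rw [← hLNL]; noncomm_ring
      _ = L := by rw [hinv, mul_one, hLL]
  set X : A := T - Q * N * T with hX
  have hXT : X * T = X := by rw [hX, sub_mul, mul_assoc (Q * N), hTT]
  have hXs : X ∈ s := sub_mem hTs (mul_mem (mul_mem hQs hNs) hTs)
  have hXsa : star X = T - T * N * Q := by
    rw [hX, star_sub, star_mul, star_mul, hTsa, hNsa, hQsa, ← mul_assoc]
  have hLNX : L * (N * X) = 0 := by
    calc L * (N * X) = L * N * T - (L * N * Q) * N * T := by rw [hX]; noncomm_ring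
      _ = 0 := by rw [hLNQ]; exact sub_self _
  have hTNX : T * (N * X) = N * X := by
    calc T * (N * X) = (L + T) * (N * X) := by rw [add_mul L T, hLNX, zero_add]
      _ = N * X := by rw [hLT1, one_mul]
  set S : A := star X * N * X with hS
  have hSe : S = N * X := by
    rw [hS, hXsa, mul_assoc, sub_mul, hTNX, sub_eq_self]
    calc T * N * Q * (N * X) = T * N * Q * (T * (N * X)) := by rw [hTNX]
      _ = T * N * (Q * T) * (N * X) := by noncomm_ring
      _ = 0 := by rw [hQT]; simp
  have hST : S * T = S := by rw [hSe, mul_assoc, hXT]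
  have hTS : T * S = S := by rw [hSe, hTNX]
  have hSε : ε • T ≤ S := by
    have h1 := star_left_conjugate_le_conjugate hNε X
    rw [mul_smul_comm, mul_one, smul_mul_assoc] at h1
    refine (smul_le_smul_of_nonneg_left ?_ hε.le).trans h1
    have e : star X * X = T + star (Q * N * T) * (Q * N * T) := by
      have e1 : T * (Q * N * T) = 0 := by rw [← mul_assoc, ← mul_assoc, hTQ, zero_mul, zero_mul]
      have e2 : star (Q * N * T) * T = 0 := by
        have := congrArg star e1
        rwa [star_mul, hTsa, star_zero] at this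
      rw [hX, star_sub, hTsa, sub_mul, mul_sub, mul_sub, hTT, e1, e2]
      abel
    rw [e]
    exact le_add_of_nonneg_right (star_mul_self_nonneg _)
  have hS'pos : IsStrictlyPositive (S + L) :=
    hext S T L hSε hT0 hL0 (by rw [add_comm, hLT1])
  have hSs : S ∈ s := mul_mem (mul_mem (star_mem hXs) hNs) hXs
  obtain ⟨R, hRsa, hRs, hRR, hRSR, hRc⟩ := exists_invSqrt s hS'pos (add_mem hSs hLs)
  have hcT : T * R = R * T := hRc T (show T * (S + L) = (S + L) * T by
    rw [mul_add, add_mul, hTS, hST, hTL, hLT])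
  refine ⟨Q, X * R, hQs, mul_mem hXs hRs, hQ0, hTQ, ?_, ?_⟩
  · have hinv : (S + L) * (R * R) = 1 := by
      rw [hRR]; exact Ring.mul_inverse_cancel _ hS'pos.isUnit
    set Z : A := Q + X * R * T * star (X * R) with hZ
    have e1 : N * (X * R * T * star (X * R)) = T * star X := by
      have eT : T * (S + L) = S := by rw [mul_add, hTS, hTL, add_zero]
      calc N * (X * R * T * star (X * R))
          = N * X * (R * T) * R * star X := by rw [star_mul, hRsa.star_eq]; noncomm_ring
        _ = S * (T * R) * R * star X := by rw [← hSe, hcT]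
        _ = (S * T) * (R * R) * star X := by noncomm_ring
        _ = T * ((S + L) * (R * R)) * star X := by rw [hST, ← mul_assoc T, eT]
        _ = T * star X := by rw [hinv, mul_one]
    have hNZ : N * Z = 1 := by
      rw [hZ, mul_add, e1, hXsa, mul_sub, hTT]
      calc N * Q + (T - T * (T * N * Q)) = L * N * Q + T := by
            rw [← mul_assoc T (T * N) Q, ← mul_assoc T T N, hTT, hL, sub_mul, sub_mul, one_mul]
            abel
        _ = 1 := by rw [hLNQ, hLT1]
    calc Ring.inverse N = Ring.inverse N * (N * Z) := by rw [hNZ, mul_one]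
      _ = Z := by
        rw [← mul_assoc, Ring.inverse_mul_cancel N (isUnit_of_ge hε hNε).isUnit, one_mul]
  · have h1 : star (X * R * T) * M * (X * R * T) ≤ star (X * R * T) * N * (X * R * T) :=
      star_left_conjugate_le_conjugate (le_add_of_nonneg_right (smul_nonneg hε.le zero_le_one)) _
    have e1 : T * (star (X * R) * M * (X * R)) * T = star (X * R * T) * M * (X * R * T) := by
      rw [star_mul (X * R), hTsa]; noncomm_ring
    refine (e1.trans_le h1).trans_eq ?_
    calc star (X * R * T) * N * (X * R * T)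
        = T * R * S * (R * T) := by
          rw [star_mul, star_mul, hTsa, hRsa.star_eq, hS]; noncomm_ring
      _ = R * T * S * (T * R) := by rw [hcT]
      _ = R * ((T * (S + L)) * T) * R := by
          rw [mul_add, hTS, hTL, add_zero]
          calc R * T * S * (T * R) = R * (T * S) * T * R := by noncomm_ring
            _ = R * (S * T) * R := by rw [hTS]; noncomm_ring
      _ = T := by
          rw [mul_add, hTS, hTL, add_zero, hST]
          calc R * S * R = R * (T * (S + L)) * R := by rw [mul_add, hTS, hTL, add_zero]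
            _ = (R * T) * (S + L) * R := by noncomm_ring
            _ = T * (R * (S + L) * R) := by rw [← hcT]; noncomm_ring
            _ = T := by rw [hRSR, mul_one]

/-- An element whose square is below `N` compresses the inverse of `N` below one. -/
theorem conj_inverse_le_one {a N : A} (ha : IsSelfAdjoint a) (hN : IsStrictlyPositive N)
    (h : a * a ≤ N) : a * Ring.inverse N * a ≤ 1 := by
  have : IsClosed ((⊤ : StarSubalgebra ℂ A) : Set A) := by simp
  obtain ⟨R, hR, -, hRR, hRNR, -⟩ := exists_invSqrt ⊤ hN StarSubalgebra.mem_top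
  have h1 : star (a * R) * (a * R) ≤ 1 := by
    have h2 := star_left_conjugate_le_conjugate h R
    rw [hR.star_eq, hRNR] at h2
    refine le_trans (le_of_eq ?_) h2
    rw [star_mul, hR.star_eq, ha.star_eq]; noncomm_ring
  have h3 : ‖a * R‖ * ‖a * R‖ ≤ 1 := by
    rw [← CStarRing.norm_star_mul_self]
    exact (CStarAlgebra.norm_le_one_iff_of_nonneg _ (star_mul_self_nonneg _)).2 h1
  have e : a * Ring.inverse N * a = (a * R) * star (a * R) := by
    rw [star_mul, hR.star_eq, ha.star_eq, ← hRR]; noncomm_ring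
  rw [e]
  refine (CStarAlgebra.norm_le_one_iff_of_nonneg _ (mul_star_self_nonneg _)).1 ?_
  rw [CStarRing.norm_self_mul_star]
  exact h3

theorem le_inverse {N q : A} {C : ℝ} (hN : IsStrictlyPositive N) (hq : Commute q N)
    (h : q * N ≤ (C : ℂ) • 1) : q ≤ (C : ℂ) • Ring.inverse N := by
  rw [Complex.coe_smul] at h ⊢
  have : IsClosed ((⊤ : StarSubalgebra ℂ A) : Set A) := by simp
  obtain ⟨R, hR, -, hRR, hRNR, hRc⟩ := exists_invSqrt ⊤ hN StarSubalgebra.mem_top
  have h2 := star_left_conjugate_le_conjugate h R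
  rw [hR.star_eq, mul_smul_comm, mul_one, smul_mul_assoc, hRR] at h2
  refine le_trans (le_of_eq ?_) h2
  have hc : q * R = R * q := hRc q hq
  calc q = q * (R * N * R) := by rw [hRNR, mul_one]
    _ = R * (q * N) * R := by rw [← mul_assoc, ← mul_assoc, hc]; noncomm_ring

theorem isUnit_of_ge' {N : A} {ε : ℝ} (hε : 0 < ε) (hN : (ε : ℂ) • (1 : A) ≤ N) :
    IsStrictlyPositive N := by
  rw [Complex.coe_smul] at hN
  exact isUnit_of_ge hε hN

theorem smul_one_mono {a b : ℝ} (h : a ≤ b) : (a : ℂ) • (1 : A) ≤ (b : ℂ) • 1 := by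
  rw [Complex.coe_smul, Complex.coe_smul]
  exact smul_le_smul_of_nonneg_right h zero_le_one

theorem smul_mono {c : ℝ} (hc : 0 ≤ c) {a b : A} (h : a ≤ b) : (c : ℂ) • a ≤ (c : ℂ) • b := by
  rw [Complex.coe_smul, Complex.coe_smul]
  exact smul_le_smul_of_nonneg_left h hc

theorem smul_mono_left {a b : ℝ} {x : A} (hx : 0 ≤ x) (h : a ≤ b) :
    (a : ℂ) • x ≤ (b : ℂ) • x := by
  rw [Complex.coe_smul, Complex.coe_smul]
  exact smul_le_smul_of_nonneg_right h hx

theorem isSelfAdjoint_smul {x : A} (hx : IsSelfAdjoint x) (c : ℝ) :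
    IsSelfAdjoint ((c : ℂ) • x) := by
  rw [Complex.coe_smul]
  exact (IsSelfAdjoint.all c).smul hx

theorem norm_le_of_le {K : A} {B : ℝ} (hB : 0 ≤ B) (hK : IsSelfAdjoint K)
    (h1 : K ≤ (B : ℂ) • (1 : A)) (h2 : -K ≤ (B : ℂ) • (1 : A)) : ‖K‖ ≤ B := by
  rw [Complex.coe_smul, ← Algebra.algebraMap_eq_smul_one] at h1 h2
  rw [← cfc_id' ℝ K]
  refine norm_cfc_le hB fun t ht => ?_
  rw [Real.norm_eq_abs, abs_le]
  refine ⟨?_, (le_algebraMap_iff_spectrum_le hK).1 h1 t ht⟩
  have h3 : algebraMap ℝ A (-B) ≤ K := by rw [map_neg]; exact neg_le.1 h2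
  exact (algebraMap_le_iff_le_spectrum hK).1 h3 t ht

theorem norm_le_smul_one {E : A} {c : ℝ} (hc : 0 ≤ c) (hE : 0 ≤ E)
    (h : E ≤ (c : ℂ) • (1 : A)) : ‖E‖ ≤ c :=
  norm_le_of_le hc (IsSelfAdjoint.of_nonneg hE) h
    ((neg_nonpos.2 hE).trans ((smul_one_mono hc).trans_eq' (by simp)))

theorem le_smul_norm {E : A} (hE : IsSelfAdjoint E) {c : ℝ} (hc : ‖E‖ ≤ c) :
    E ≤ (c : ℂ) • (1 : A) := by
  rw [Complex.coe_smul, ← Algebra.algebraMap_eq_smul_one]
  exact hE.le_algebraMap_norm_self.trans (algebraMap_mono A hc)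

end Vale.Agent.P078.AllMasa.Schur
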