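import Vale.Agent.P078.AllMasa.Defect.Pos
import Vale.Agent.P078.AllMasa.Defect.Schur

/-! The supersolution almost everywhere, and crude norm bounds of the lifted operators. -/

namespace Vale.Agent.P078.AllMasa.Lift

set_option linter.unusedSectionVars false

open Filter Topology MeasureTheory
open Vale.Agent.P078.Tracial
open scoped ENNReal InnerProductSpace ComplexOrder

variable {X : Type} [TopologicalSpace X] [CompactSpace X] [T2Space X] [TotallyDisconnectedSpace X]
variable [MeasurableSpace X] [BorelSpace X]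
variable {μ : Measure X} [IsFiniteMeasure μ]

theorem integral_dens {p : PMap X} (hp : p.NS μ) {Φ : X → ℝ} (hΦ : Continuous Φ) :
    ∫ x, (p.dens μ x).toReal * Φ x ∂μ = ∫ y in p.rng, Φ (p.σ y) ∂μ := by
  have h := integral_rnDeriv_smul (f := Φ) hp.map_ac
  simp only [smul_eq_mul] at h
  rw [PMap.dens, h, integral_map p.σ.continuous.measurable.aemeasurable hΦ.aestronglyMeasurable]

/-- A function with nonpositive integral on clopen sets is almost everywhere nonpositive. -/
theorem ae_nonpos_of_clopen [μ.Regular] {φ : X → ℝ} (hφ : Integrable φ μ)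
    (h : ∀ V : Set X, IsClopen V → ∫ x in V, φ x ∂μ ≤ 0) : ∀ᵐ x ∂μ, φ x ≤ 0 := by
  refine ae_le_of_forall_setIntegral_le hφ (integrable_zero _ _ _) fun A hA _ => ?_
  simp only [integral_zero]
  refine le_of_forall_pos_le_add fun ε hε => ?_
  obtain ⟨δ, hδ, hδs⟩ := exists_pos_setLIntegral_lt_of_measure_lt (μ := μ)
    (f := fun x => ‖φ x‖ₑ) hφ.hasFiniteIntegral.ne (ε := ENNReal.ofReal (ε / 2))
    (by simp; linarith)
  obtain ⟨K, hKA, hK, hKm⟩ := hA.exists_isCompact_sdiff_lt (measure_ne_top μ A) hδ.ne'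
  obtain ⟨O, hAO, hO, hOt, hOm⟩ := hA.exists_isOpen_sdiff_lt (measure_ne_top μ A) hδ.ne'
  obtain ⟨V, hV, hKV, hVO⟩ := exists_clopen_of_closed_subset_open hK.isClosed hO (hKA.trans hAO)
  have hsmall : ∀ E : Set X, μ E < δ → |∫ x in E, φ x ∂μ| ≤ ε / 2 := fun E hE => by
    have h1 := enorm_integral_le_lintegral_enorm (μ := μ.restrict E) φ
    have h2 := (h1.trans_lt (hδs E hE)).le
    rw [← ofReal_norm, ENNReal.ofReal_le_ofReal_iff (by linarith), Real.norm_eq_abs] at h2
    exact h2
  have hVm : MeasurableSet V := hV.isClosed.measurableSet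
  have e1 := integral_inter_add_sdiff (s := A) hVm hφ.integrableOn
  have e2 := integral_inter_add_sdiff (s := V) hA hφ.integrableOn
  rw [Set.inter_comm V A] at e2
  have h1 := hsmall (A \ V) ((measure_mono (Set.sdiff_subset_sdiff_right hKV)).trans_lt hKm)
  have h2 := hsmall (V \ A) ((measure_mono (Set.sdiff_subset_sdiff_left hVO)).trans_lt hOm)
  linarith [h V hV, le_abs_self (∫ x in A \ V, φ x ∂μ), neg_abs_le (∫ x in V \ A, φ x ∂μ)]

variable {r : ℕ} {d : LData X r}

/-- The nonsingularity in both directions. -/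
theorem ns_of_symm (hd : d.Ok) (hnull : ∀ c k, ((d.F c).p k).NullPres μ) (c : Fin r)
    (k : Fin (d.F c).num) : ((d.F c).p k).NS μ := by
  obtain ⟨inv, -, hp, -⟩ := (hd.symm c).exists_inv
  exact ⟨hnull c k, hp k ▸ hnull c (inv k)⟩

/-- The rate of the weighted translations at a point, seen in the lifted space. -/
noncomputable def rate (μ : Measure X) (d : LData X r) (c : Fin r) (x : X) : ℝ :=
  ∑ k, (((d.F c).p k).d x * (d.F c).g k x * d.act c (((d.F c).p k).τ x)) *
    (((d.F c).p k).dens μ x).toReal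

/-- The supersolution almost everywhere. -/
theorem super_ae [μ.Regular] (hd : d.Ok) (hnull : ∀ c k, ((d.F c).p k).NullPres μ) {τ0 : ℝ}
    (hsuper : ∀ c (f : C(X, ℝ)), 0 ≤ f →
      (∫ x, d.act c x * (d.F c).K (d.act c * f) x ∂μ) + τ0 * ∫ x, d.act c x * f x ∂μ
        ≤ ∫ x, d.e c x * (d.act c x * f x) ∂μ) (c : Fin r) :
    ∀ᵐ x ∂μ, d.act c x = 1 → rate μ d c x + τ0 ≤ d.e c x := by
  classical
  obtain ⟨inv, hinv, hp, hg⟩ := (hd.symm c).exists_inv
  have hdi : ∀ k, Integrable (fun x => (((d.F c).p k).dens μ x).toReal) μ := fun k =>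
    Measure.integrable_toReal_rnDeriv
  have hCc : ∀ f : C(X, ℝ), Integrable (fun x => f x) μ := fun f =>
    Integrable.of_bound f.continuous.aestronglyMeasurable ‖f‖
      (Eventually.of_forall f.norm_coe_le_norm)
  have hmul : ∀ (f : C(X, ℝ)) (k), Integrable
      (fun x => f x * (((d.F c).p k).dens μ x).toReal) μ := fun f k =>
    (hdi k).bdd_mul f.continuous.aestronglyMeasurable (Eventually.of_forall f.norm_coe_le_norm)
  set φ : X → ℝ := fun x => d.act c x * (rate μ d c x + τ0 - d.e c x) with hφ
  set m : Fin (d.F c).num → C(X, ℝ) := fun k =>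
    d.act c * (((d.F c).p k).d * (d.F c).g k * (d.act c).comp ((d.F c).p k).τ) with hm
  have hφe : ∀ x, φ x = ∑ k, m k x * (((d.F c).p k).dens μ x).toReal
      + τ0 * d.act c x - d.e c x * d.act c x := fun x => by
    simp only [hφ, rate, hm, ContinuousMap.mul_apply, ContinuousMap.comp_apply, mul_sub, mul_add,
      Finset.mul_sum]
    rw [mul_comm (d.act c x) τ0, mul_comm (d.act c x) (d.e c x)]
    congr 2
    exact Finset.sum_congr rfl fun k _ => by ring
  have hφi : Integrable φ μ := by
    refine Integrable.congr ?_ (Eventually.of_forall fun x => (hφe x).symm)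
    exact ((integrable_finsetSum _ fun k _ => hmul (m k) k).add ((hCc (d.act c)).const_mul τ0)).sub
      (hCc (d.e c * d.act c))
  have key : ∀ᵐ x ∂μ, φ x ≤ 0 := by
    refine ae_nonpos_of_clopen hφi fun V hV => ?_
    set f : C(X, ℝ) := ind V hV with hf
    have hf0 : 0 ≤ f := ContinuousMap.le_def.2 fun x => by
      by_cases h : x ∈ V <;> simp [hf, ind_apply, h]
    have h1 := hsuper c f hf0
    have e1 : ∫ x in V, φ x ∂μ = ∫ x, f x * φ x ∂μ := by
      rw [← integral_indicator hV.isClosed.measurableSet]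
      refine integral_congr_ae (Eventually.of_forall fun x => ?_)
      by_cases h : x ∈ V <;> simp [hf, ind_apply, h]
    have ek : ∀ k, ∫ x, (f * m k) x * (((d.F c).p k).dens μ x).toReal ∂μ =
        ∫ x, d.act c x * ((d.F c).g (inv k) x * ((d.F c).p (inv k)).T (d.act c * f) x) ∂μ := by
      intro k
      simp_rw [mul_comm ((f * m k) _) _]
      rw [integral_dens (ns_of_symm hd hnull c k) (f * m k).continuous,
        ← integral_indicator ((d.F c).p k).rng_clopen.isClosed.measurableSet, hp k, hg k]
      refine integral_congr_ae (Eventually.of_forall fun y => ?_)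
      by_cases hy : y ∈ ((d.F c).p k).rng
      · simp only [Set.indicator_of_mem hy, PMap.T, PMap.symm, PMap.d_apply,
          ContinuousMap.mul_apply, ContinuousMap.comp_apply, hm, hy, if_true, one_mul,
          ((d.F c).p k).map_rng y hy, ((d.F c).p k).right_inv y hy]
        ring
      · simp [PMap.T, PMap.symm, PMap.d_apply, hy]
    have e2 : ∫ x, f x * φ x ∂μ = (∫ x, d.act c x * (d.F c).K (d.act c * f) x ∂μ)
        + τ0 * (∫ x, d.act c x * f x ∂μ) - ∫ x, d.e c x * (d.act c x * f x) ∂μ := by
      have e3 : ∀ x, f x * φ x = ∑ k, (f * m k) x * (((d.F c).p k).dens μ x).toReal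
          + τ0 * (d.act c x * f x) - d.e c x * (d.act c x * f x) := fun x => by
        rw [hφe x, mul_sub, mul_add, Finset.mul_sum]
        simp only [ContinuousMap.mul_apply, ← mul_assoc]
        ring
      have i1 : Integrable (fun x => ∑ k, (f * m k) x * (((d.F c).p k).dens μ x).toReal) μ :=
        integrable_finsetSum _ fun k _ => hmul (f * m k) k
      have i2 : Integrable (fun x => τ0 * (d.act c x * f x)) μ :=
        (hCc (d.act c * f)).const_mul τ0
      have i3 : Integrable (fun x => d.e c x * (d.act c x * f x)) μ :=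
        hCc (d.e c * (d.act c * f))
      rw [integral_congr_ae (Eventually.of_forall e3), integral_sub ?_ i3, integral_add i1 i2,
        integral_const_mul, integral_finsetSum _ fun k _ => hmul (f * m k) k]
      swap; · exact i1.add i2
      simp only [ek]
      rw [← integral_finsetSum _ fun k _ => ?_]
      · congr 2
        refine integral_congr_ae (Eventually.of_forall fun x => ?_)
        simp only [Fam.K, ContinuousMap.coe_sum, Finset.sum_apply, ContinuousMap.mul_apply,
          Finset.mul_sum]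
        exact Equiv.sum_comp hinv.toPerm
          fun k => d.act c x * ((d.F c).g k x * ((d.F c).p k).T (d.act c * f) x)
      · exact hCc (d.act c * ((d.F c).g (inv k) * ((d.F c).p (inv k)).T (d.act c * f)))
    rw [e1, e2]
    linarith
  filter_upwards [key] with x hx ha
  simp only [hφ, ha, one_mul] at hx
  linarith

theorem norm_op_le (w : Word μ) {C : ℝ} (h0 : 0 ≤ C) (h : w.C ≤ C) : ‖w.op‖ ≤ C :=
  (LinearMap.mkContinuous_norm_le _ (le_max_right _ _) _).trans (max_le h h0)

theorem mulWord_const (B : ℝ) :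
    (mulWord (μ := μ) (φ := fun _ => B) measurable_const (C := |B|) fun _ => le_rfl).op =
      (B : ℂ) • (1 : H μ →L[ℂ] H μ) := by
  refine ContinuousLinearMap.ext fun f => Lp.ext ?_
  refine (coe_mulWord _ _ f).trans ?_
  rw [smul_apply, one_apply_eq_self]
  filter_upwards [Lp.coeFn_smul (B : ℂ) f] with z hz
  rw [hz]; simp

/-- The translations of one colour are self-adjoint with norm at most the bound. -/
theorem kop_bound (hd : d.Ok) (hns : ∀ c k, ((d.F c).p k).NS μ) (c : Fin r) :
    IsSelfAdjoint (∑ k, (gWord μ ((d.F c).g k) ((d.F c).p k) (hns c k)).op) ∧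
      ‖∑ k, (gWord μ ((d.F c).g k) ((d.F c).p k) (hns c k)).op‖ ≤ d.B := by
  obtain ⟨inv, hinv, hp, hg⟩ := (hd.symm c).exists_inv
  set w : Fin (d.F c).num → Word μ := fun k => gWord μ ((d.F c).g k) ((d.F c).p k) (hns c k)
  have hg0 : ∀ k x, 0 ≤ (d.F c).g k x := fun k x =>
    ContinuousMap.le_def.1 ((hd.symm c).g_nonneg k) x
  have h := schur_test w inv hinv (fun k => hp k) (fun k z => hg0 k z.1)
    (fun k => Eventually.of_forall fun z hz => by
      show (d.F c).g (inv k) (((d.F c).p k).τ z.1) = (d.F c).g k z.1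
      simp [hg k, PMap.T, PMap.symm, PMap.d_apply, ((d.F c).p k).map_dom _ hz.1,
        ((d.F c).p k).left_inv _ hz.1])
    (ω := fun _ => 1) measurable_const (fun _ => one_pos) (β := fun _ => d.B) measurable_const
    (Cβ := |d.B|) (fun _ => le_rfl) (Eventually.of_forall fun z => by
      refine le_trans (le_of_eq ?_) (hd.K_le c z.1)
      simp only [Fam.K, ContinuousMap.coe_sum, Finset.sum_apply, ContinuousMap.mul_apply]
      refine Finset.sum_congr rfl fun k _ => ?_
      by_cases hz : z.1 ∈ ((d.F c).p k).dom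
      · have hz' : z ∈ dz (w k).p := ⟨hz, trivial⟩
        simp [w, gWord, dz, hz, PMap.T, PMap.d_apply]
      · simp [w, gWord, dz, hz, PMap.T, PMap.d_apply])
  rw [mulWord_const] at h
  have hsa : IsSelfAdjoint (∑ k, (w k).op) := by
    have h1 := ((ContinuousLinearMap.le_def _ _).1 h.1).isSelfAdjoint
    have h2 := (Schur.isSelfAdjoint_smul (IsSelfAdjoint.one (H μ →L[ℂ] H μ)) d.B).sub h1
    rwa [sub_sub_cancel] at h2
  exact ⟨hsa, Schur.norm_le_of_le hd.B_pos.le hsa h.1 h.2⟩

end Vale.Agent.P078.AllMasa.Lift
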